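import Vale.Agent.P281Z.An.Rk
import Vale.Agent.P277Z.Slc.Unit
import Vale.Agent.P277Z.Slc.Sard

/-!
# P281, block AN: critical points on the strata
-/

open scoped Manifold ContDiff Topology
open Set Filter Function
open Vale.Agent.P272.K
open Vale.Agent.P277Z (Hol at_chart)
open Vale.Agent.P277Z.Slc (Ind LEq Snc dd tr ind_iff_surj)

noncomputable section

namespace Vale.Agent.P281Z.Ana

variable {n p : ℕ} {X Y : Type} [TopologicalSpace X] [ChartedSpace (Cm n) X]
  [IsManifold 𝓘(ℂ, Cm n) ω X] [TopologicalSpace Y] [ChartedSpace (Cm p) Y]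
  [IsManifold 𝓘(ℂ, Cm p) ω Y] {f : X → Y} {x : X}

/-- the points where a finite family is dependent -/
theorem anAt_dep {α : Type} [Fintype α] {h : α → X → ℂ} (hh : ∀ a, Hol n (h a) x) :
    AnAt n {y | ¬ Ind n h y} x := by
  have he := at_chart (n := n) x
  set e := chartAt (Cm n) x
  let ε := (Fintype.equivFin α).symm
  refine (AnAt.of_chart' he (rkan _ n _ (Fintype.card α) (fun z => ContinuousLinearMap.pi fun i =>
    fderiv ℂ (fun z => h (ε i) (e.symm z)) z) (e x) fun v i =>
      ((ContinuousLinearMap.apply ℂ ℂ v).analyticAt _).comp (hh _ e he).fderiv)).congr ?_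
  filter_upwards [eventually_all.2 fun a => (hh a).near, at_near he] with y a b
  refine Iff.trans ⟨fun k c => k.ne ((rk_eq_iff_surj _).2 c), fun k =>
    (rk_le_right _).lt_of_ne fun c => k ((rk_eq_iff_surj _).1 c)⟩ (not_congr ?_)
  exact (ind_iff_surj _).symm.trans ((linearIndependent_equiv ε (f := fun a => dd (h a) e y)).trans
    ⟨P277Z.Slc.Ind.of_chart a b, fun k => k.2 e b⟩)

variable [T2Space X] [SecondCountableTopology X] {κ : Type} [Fintype κ] {G : κ → Set X}

/-- the choices do not matter -/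
theorem submAt_of (hf : HolA n p f x) {e' : Chart p Y} (he' : At e' (f x)) {ζ : κ → X → ℂ}
    (hζ : ∀ l, LEq n (G l) x (ζ l))
    (h : Ind n (Sum.elim (fun l : {l // x ∈ G l} => ζ l) fun (a : Fin p) z => e' (f z) a) x) :
    SubmAt n p f G x := by
  classical
  intro c hc ξ hξ
  choose u u1 u2 u3 using fun l => P277Z.Slc.stUnit n X (G l) x _ _ (hζ l) (hξ l)
  refine ⟨Sum.rec (fun l => (hξ l).hol) fun a => hf.hol (P281Z.hol_chart hc a), fun e he =>
    (ind_iff_surj _).2 fun w => ?_⟩
  obtain ⟨t, ht⟩ := P277Z.Slc.tr_surj hc he' fun a => w (.inr a)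
  obtain ⟨v, hv⟩ := (ind_iff_surj _).1 (h.2 e he) (Sum.elim (fun l => w (.inl l) / u l x) t)
  refine ⟨v, funext ?_⟩
  rintro (l | a)
  · have k : dd (ζ l) e x v = w (.inl l) / u l x := congrFun hv (.inl l)
    change dd (ξ l) e x v = _
    rw [P277Z.Slc.dd_congr (u3 l) he, P277Z.Slc.dd_mul (u1 l) (hζ l).hol ((hζ l).mem.2 l.2) he,
      smul_apply, k, smul_eq_mul, mul_div_cancel₀ _ (u2 l)]
  · have k : df f e e' x v = t := funext fun a =>
      (df_apply hf he he' v a).trans (congrFun hv (.inr a))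
    refine (df_apply hf he hc v a).symm.trans ?_
    rw [df_comp (g := fun y => y) (holM_id.at _) hf he he' hc, ContinuousLinearMap.comp_apply, k,
      df_id, ht]

theorem crit : CRIT := by
  classical
  intro n p V Y f κ _ G hf hG
  refine ⟨fun x => ?_, fun y => ?_⟩
  · obtain ⟨ζ, h1, -⟩ := hG x
    have he := at_chart (n := p) (f x)
    set e := chartAt (Cm p) (f x)
    refine (anAt_iUnion (ι := Finset κ) fun I => (anAt_iInter (ι := I) fun l =>
      anAt_zero (h1 l).hol).inter (anAt_dep (h := Sum.elim (fun l : I => ζ l)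
        fun (a : Fin p) z => e (f z) a) (Sum.rec (fun l => (h1 l).hol)
          fun a => hf.hol (P281Z.hol_chart he a)))).congr ?_
    filter_upwards [eventually_all.2 fun l => (h1 l).near,
      hf.cont.continuousAt.eventually (at_near he)] with y a b
    simp only [mem_iUnion, mem_inter_iff, mem_iInter, mem_ofPred_eq]
    refine ⟨fun ⟨I, c, d⟩ k => d ?_, fun k => ⟨Finset.univ.filter fun l => y ∈ G l,
      fun l => (a l).mem.2 (Finset.mem_filter.1 l.2).2, fun c => k (submAt_of (hf.at y) b a ?_)⟩⟩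
    · refine (congrArg (fun h => Ind n h y) (funext ?_)).mp ((k e b ζ a).comp
        (Sum.map (fun l : I => ⟨l, (a l).mem.1 (c l)⟩) id) (Sum.map_injective.2
          ⟨fun _ _ k => Subtype.ext (Subtype.mk.inj k), injective_id⟩))
      rintro (l | a) <;> rfl
    · refine (congrArg (fun h => Ind n h y) (funext ?_)).mp (c.comp (Sum.map
        (fun l : {l // y ∈ G l} => ⟨l, Finset.mem_filter.2 ⟨Finset.mem_univ _, l.2⟩⟩) id)
          (Sum.map_injective.2 ⟨fun _ _ k => Subtype.ext (Subtype.mk.inj k), injective_id⟩))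
      rintro (l | a) <;> rfl
  · have he := at_chart (n := p) y
    set e := chartAt (Cm p) y
    have h1 := MeasureTheory.Measure.dense_of_ae (P277Z.Slc.stSard_of P277Z.Slc.stUnit n V.X κ G
      (f ⁻¹' e.source) p (fun x => e (f x)) hG (e.open_source.preimage hf.cont)
      fun x hx => hf.coord ⟨he.1, hx⟩)
    refine mem_closure_iff_frequently.2 fun c => ?_
    obtain ⟨s, a, b, d⟩ := ((mem_closure_iff_frequently.1 (h1 (e y))).and_eventually
      ((at_ev he c).and (e.open_target.mem_nhds (e.map_source he.2)))).exists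
    refine b fun ⟨x, k, k'⟩ => k ?_
    have k1 : At e (f x) := ⟨he.1, k'.symm ▸ e.map_target d⟩
    obtain ⟨ζ, h2, -⟩ := hG x
    have k2 := a x k1.2 ((congrArg e k').trans (e.right_inv d)) ζ h2
    refine submAt_of (hf.at x) k1 h2 ⟨Sum.rec (fun l => (h2 l).hol) (hf.coord k1), fun c hc => ?_⟩
    refine (congrArg (fun v : _ → Cm n →L[ℂ] ℂ => LinearIndependent ℂ v) (funext ?_)).mp
      (k2.2 c hc)
    rintro (l | a)
    · rfl
    · exact P277Z.Slc.dd_sub_const _ _ _ _

end Vale.Agent.P281Z.Ana
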