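import Vale.Agent.P281Z.An.Basic

/-!
# P281, block AN: the image of a connected manifold
-/

open scoped Manifold ContDiff Topology
open Set Filter
open Vale.Agent.P272.K Vale.Agent.P277Z Vale.Agent.P277Z.Slc
open Vale.Agent.P277.H762 (Cv cv_biUnion not_cv_nhds)

noncomputable section

namespace Vale.Agent.P281Z.Ana.Im

theorem rk_left {n m k : ℕ} (A : Cm m →L[ℂ] Cm k) (B : Cm n →L[ℂ] Cm m) : rk (A.comp B) ≤ rk A :=
  Submodule.finrank_mono (LinearMap.range_comp_le_range (B : Cm n →ₗ[ℂ] Cm m) (A : Cm m →ₗ[ℂ] Cm k))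

theorem rk_right {n m k : ℕ} (A : Cm m →L[ℂ] Cm k) (B : Cm n →L[ℂ] Cm m) :
    rk (A.comp B) ≤ rk B := by
  have := Submodule.finrank_map_le (A : Cm m →ₗ[ℂ] Cm k) (LinearMap.range (B : Cm n →ₗ[ℂ] Cm m))
  rwa [← LinearMap.range_comp] at this

theorem comp_eq {n m k : ℕ} {g : Cm m → Cm k} {f : Cm n → Cm m} {x : Cm n} {y : Cm m}
    (hg : AnalyticAt ℂ g y) {L : Cm n →L[ℂ] Cm m} (hf : HasFDerivAt f L x) (e : f x = y) :
    HasFDerivAt (fun z => g (f z)) ((fderiv ℂ g y).comp L) x :=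
  HasFDerivAt.comp x (e ▸ hg.differentiableAt.hasFDerivAt) hf

theorem cv_local {X E : Type} [TopologicalSpace X] [SecondCountableTopology X]
    [NormedAddCommGroup E] [NormedSpace ℂ E] {k : ℕ} {S : Set X} {g : X → E}
    (h : ∀ x ∈ S, ∃ N ∈ 𝓝 x, Cv k (g '' (N ∩ S))) : Cv k (g '' S) := by
  choose! N hN hd using h
  obtain ⟨t, htT, htc, ht⟩ := TopologicalSpace.countable_cover_nhdsWithin
    (f := N) (s := S) fun p hp => mem_nhdsWithin_of_mem_nhds (hN p hp)
  refine (cv_biUnion htc fun p hp => hd p (htT hp)).mono ?_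
  rintro _ ⟨x, hx, rfl⟩
  obtain ⟨p, hp, hxp⟩ := mem_iUnion₂.1 (ht hx)
  exact mem_iUnion₂.2 ⟨p, hp, x, ⟨hxp, hx⟩, rfl⟩

variable {n p : ℕ} {V : Mf n} {Y : Mf p} {f : V.X → Y.X} {x : V.X}

theorem df_chg (hf : HolM n p f) {e e₁ : Chart n V.X} {c c₁ : Chart p Y.X} (he : At e x)
    (he₁ : At e₁ x) (hc : At c (f x)) (hc₁ : At c₁ (f x)) :
    df f e₁ c₁ x = (tr c₁ c (f x)).comp ((df f e c x).comp (tr e e₁ x)) := by
  refine ((comp_eq (trans_an hc₁ hc) (comp_eq (hf.an he hc)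
    (trans_an he he₁).differentiableAt.hasFDerivAt (by rw [he₁.left_inv]))
    (by simp only [he₁.left_inv, he.left_inv])).congr_of_eventuallyEq ?_).fderiv
  filter_upwards [ev_symm he₁ ((at_near he).and (hf.cont.continuousAt.eventually (at_near hc)))]
    with z hz
  simp only [e.left_inv hz.1.2, c.left_inv hz.2.2]

/-- the rank of `f` at `x` -/
def r (f : V.X → Y.X) (x : V.X) : ℕ := rk (df f (chartAt (Cm n) x) (chartAt (Cm p) (f x)) x)

theorem rk_eq (hf : HolM n p f) {e : Chart n V.X} {c : Chart p Y.X} (he : At e x)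
    (hc : At c (f x)) : rk (df f e c x) = r f x := by
  refine le_antisymm ?_ ?_
  · rw [df_chg hf (at_chartAt x) he (at_chartAt _) hc]
    exact (rk_right _ _).trans (rk_left _ _)
  · rw [r, df_chg hf he (at_chartAt x) hc (at_chartAt _)]
    exact (rk_right _ _).trans (rk_left _ _)

theorem an_rk (h : RKAN) (hf : HolM n p f) (k : ℕ) : An n {x | r f x < k} := fun x => by
  have he := at_chartAt (n := n) x
  have hc := at_chartAt (n := p) (f x)
  refine (AnAt.of_chart' he (h _ n p k (fderiv ℂ fun z => chartAt (Cm p) (f x)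
    (f ((chartAt (Cm n) x).symm z))) _ fun v i => analyticAt_pi_iff.1
      (((ContinuousLinearMap.apply ℂ (Cm p) v).analyticAt _).comp (hf.an he hc).fderiv) i)).congr ?_
  filter_upwards [at_near he, hf.cont.continuousAt.eventually (at_near hc)] with y a b
  exact iff_of_eq (congrArg (· < k) (rk_eq hf a b))

theorem cv_img (h : CVRK) (hf : HolM n p f) (k : ℕ) {c : Chart p Y.X} (hc : c ∈ atlas (Cm p) Y.X) :
    Cv k ((fun x => c (f x)) '' {x | r f x ≤ k ∧ f x ∈ c.source}) := by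
  refine cv_local fun x _ => ?_
  have he := at_chartAt (n := n) x
  set e := chartAt (Cm n) x
  refine ⟨_, e.open_source.mem_nhds he.2, (h n p k _ (fun z => c (f (e.symm z)))
    (e.isOpen_inter_preimage_symm (c.open_source.preimage hf.cont)) fun z hz => ?_).mono ?_⟩
  · have := hf.an (⟨he.1, e.map_target hz.1⟩ : At e _) ⟨hc, hz.2⟩
    rwa [e.right_inv hz.1] at this
  · rintro _ ⟨y, ⟨a, b, d⟩, rfl⟩
    exact ⟨e y, ⟨⟨e.map_source a, by simpa only [mem_preimage, e.left_inv a] using d⟩,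
      (rk_eq hf ⟨he.1, a⟩ ⟨hc, d⟩).trans_le b⟩, by simp only [e.left_inv a]⟩

theorem le_of_cv {d c k : ℕ} {g : Fin c → Y.X → ℂ} {y : Y.X} (hd : d + c = p) (hg : Ind p g y)
    (h0 : ∀ a, g a y = 0) {e : Chart p Y.X} (he : At e y) {T : Set (Cm p)} (hT : Cv k T)
    (h : ∀ᶠ z in 𝓝 y, (∀ a, g a z = 0) → e z ∈ T) : d ≤ k := by
  obtain ⟨Φ, P, h1, h2, -, -⟩ := hg.par (d := d) (by simpa [add_comm] using hd) he
  by_contra hk
  refine not_cv_nhds (S := P '' T) (x := P (e y)) (by simpa using hk) ?_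
    (hT.image isOpen_univ (subset_univ _) fun z _ => P.analyticAt z)
  have h3 : Φ (e y) = (0, P (e y)) := by
    rw [h2, he.left_inv]
    exact Prod.ext (funext h0) rfl
  have h4 : Tendsto (fun u : Cm d => ((0 : Fin c → ℂ), u)) (𝓝 (P (e y))) (𝓝 (Φ (e y))) :=
    h3 ▸ (Continuous.prodMk_right _).tendsto _
  filter_upwards [h4.eventually (((Φ.tendsto_symm h1).eventually ((ev_symm he h).and
    (e.eventually_right_inverse' he.2))).and (Φ.eventually_right_inverse' h1))] with u ⟨⟨a, b⟩, s⟩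
  rw [h2] at s
  exact ⟨_, b ▸ a (congrFun (congrArg Prod.fst s)), congrArg Prod.snd s⟩

theorem rk_le (hf : HolM n p f) {d c : ℕ} {g : Fin c → Y.X → ℂ} (hd : d + c = p)
    (hg : Ind p g (f x)) (h : ∀ᶠ z in 𝓝 x, ∀ a, g a (f z) = 0) : r f x ≤ d := by
  have he := at_chartAt (n := n) x
  have hc := at_chartAt (n := p) (f x)
  set e := chartAt (Cm n) x
  set e' := chartAt (Cm p) (f x)
  let D : Cm p →ₗ[ℂ] Fin c → ℂ := (ContinuousLinearMap.pi fun a => dd (g a) e' (f x)).toLinearMap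
  have h1 := D.finrank_range_add_finrank_ker
  rw [LinearMap.range_eq_top.2 ((ind_iff_surj _).1 (hg.2 e' hc)), finrank_top] at h1
  simp only [Module.finrank_fin_fun] at h1
  refine (Submodule.finrank_mono (t := LinearMap.ker D) ?_).trans (by omega)
  rintro _ ⟨v, rfl⟩
  funext a
  have h2 := (HasFDerivAt.comp (g := fun z => g a (e'.symm z)) (e x) (by
    rw [he.left_inv]; exact (hg.1 a e' hc).differentiableAt.hasFDerivAt)
    (hf.an he hc).differentiableAt.hasFDerivAt).unique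
      ((hasFDerivAt_const (0 : ℂ) _).congr_of_eventuallyEq (by
        filter_upwards [ev_symm he (h.and (hf.cont.continuousAt.eventually (at_near hc)))] with z hz
        simp only [Function.comp_apply, e'.left_inv hz.2.2, hz.1]))
  exact congrArg (fun L : Cm n →L[ℂ] ℂ => L v) h2

end Vale.Agent.P281Z.Ana.Im

namespace Vale.Agent.P281Z.Ana

open Im in
/-- (IMG) -/
theorem img_of (h1 : REG) (h2 : REM) (h3 : RKAN) (h4 : CVRK) : IMG := by
  intro n p V Y f hf _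
  have hS : An p (range f) := image_univ ▸ h2 n p V Y f _ hf an_univ
  obtain ⟨B, b1, -, b3, b4⟩ := h1 p Y.X _ hS
  obtain ⟨x₀, hρ⟩ : ∃ x₀, ∀ x, r f x ≤ r f x₀ := by
    have hb : BddAbove (range (r f)) := ⟨p, by
      rintro _ ⟨x, rfl⟩
      exact (Submodule.finrank_le _).trans (by simp)⟩
    obtain ⟨x₀, e⟩ := Nat.sSup_mem (range_nonempty _) hb
    exact ⟨x₀, fun x => e ▸ le_csSup hb (mem_range_self x)⟩
  obtain ⟨d, hd⟩ : ∃ d : Fin (p + 1), f ⁻¹' closure (range f \ B d) = univ := by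
    by_contra! hc
    obtain ⟨x, hx⟩ := (thin_iUnion fun d : Fin (p + 1) =>
      ((hS.clo (b1 d)).preimage hf).thin (hc d)).2.nonempty
    obtain ⟨d, a, b⟩ := mem_iUnion₂.1 (b4.le (mem_range_self x))
    exact hx (mem_iUnion.2 ⟨⟨d, Finset.mem_range.1 a⟩, b⟩)
  obtain ⟨_, ⟨x₁, rfl⟩, k1⟩ := closure_nonempty_iff.1 ⟨f x₀, hd.ge trivial⟩
  have t1 := ((b1 d).preimage hf).thin fun e => k1 (e.ge trivial)
  have key : ∀ k, (∀ x, ∃ x', r f x' ≤ k ∧ f x' = f x) → (d : ℕ) ≤ k := fun k hk => by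
    obtain ⟨c, g, a1, a2, a3⟩ := b3 d _ ⟨mem_range_self x₁, k1⟩
    have he := at_chartAt (n := p) (f x₁)
    refine le_of_cv a1 a2 (a3.self_of_nhds.1 ⟨mem_range_self x₁, k1⟩) he (cv_img h4 hf k he.1) ?_
    filter_upwards [a3, at_near he] with z a b e
    obtain ⟨⟨x, rfl⟩, -⟩ := a.2 e
    obtain ⟨x', s, t⟩ := hk x
    exact ⟨x', ⟨s, t ▸ b.2⟩, congrArg _ t⟩
  have hC := an_rk h3 hf (r f x₀)
  have hI := h2 n p V Y f _ hf hC
  have e0 : (d : ℕ) = r f x₀ := by
    refine (key _ fun x => ⟨x, hρ x, rfl⟩).antisymm ?_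
    obtain ⟨x, hx⟩ := (t1.union (hC.thin fun e => lt_irrefl (r f x₀) (e.ge (mem_univ x₀)))).2.nonempty
    rw [mem_compl_iff, mem_union, not_or] at hx
    obtain ⟨c, g, a1, a2, a3⟩ := b3 d _ ⟨mem_range_self x, hx.1⟩
    refine (not_lt.1 hx.2).trans (rk_le hf a1 a2 ?_)
    filter_upwards [hf.cont.continuousAt.eventually (a3.and
      ((b1 d).isClosed.isOpen_compl.mem_nhds hx.1))] with z a using a.1.1 ⟨mem_range_self z, a.2⟩
  refine ⟨d, B d ∪ f '' {x | r f x < r f x₀}, (b1 d).union hI,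
    (t1.union ((hI.preimage hf).thin fun e => ?_)).2, fun y hy => ?_, fun x hx e e' a b => ?_⟩
  · obtain ⟨x, a, -⟩ := e.ge (mem_univ x₀)
    have := key (r f x₀ - 1) fun x => (e.ge (mem_univ x)).imp fun x' b =>
      ⟨Nat.le_sub_one_of_lt b.1, b.2⟩
    have a' : r f x < r f x₀ := a
    omega
  · obtain ⟨c, g, a1, a2, a3⟩ := b3 d y ⟨hy.1, fun e => hy.2 (.inl e)⟩
    refine ⟨c, g, a1, a2, ?_⟩
    filter_upwards [a3, hI.isClosed.isOpen_compl.mem_nhds fun e => hy.2 (.inr e)] with z a b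
    exact Iff.trans ⟨fun e => ⟨e.1, fun k => e.2 (.inl k)⟩, fun e => ⟨e.1, fun k => k.elim e.2 b⟩⟩ a
  · exact (rk_eq hf a b).trans (e0 ▸ (hρ x).antisymm (not_lt.1 fun k => hx (.inr ⟨x, k, rfl⟩)))

end Vale.Agent.P281Z.Ana
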