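import Vale.Agent.P281Z.An.Rk
import Vale.Agent.P281.H150.Gen.Fac

/-!
# P281, block AN: the regular points of an analytic set
-/

open scoped Manifold ContDiff Topology
open Set Filter
open Vale.Agent.P272.K Vale.Agent.P277Z Vale.Agent.P277Z.Slc Vale.Agent.P277Z.Oka
open Vale.Agent.P281.H150.Gen (D D_analytic exists_order)

set_option linter.unusedSectionVars false

noncomputable section

namespace Vale.Agent.P281Z.Ana

namespace Rg

section lin
variable {n c d : ℕ} {A : Set (Cm n)} {x y : Cm n}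

/-- `A` is near `y` contained in a submanifold of codimension `c` -/
def RE (A : Set (Cm n)) (c : ℕ) (y : Cm n) : Prop :=
  ∃ h : Fin c → Cm n → ℂ, (∀ a, AnalyticAt ℂ (h a) y) ∧
    (LinearIndependent ℂ fun a => fderiv ℂ (h a) y) ∧ ∀ a, Van y A (h a)

theorem re_iff {m : ℕ} {g : Fin m → Cm n → ℂ} (hg : ∀ l, AnalyticAt ℂ (g l) y)
    (h0 : ∀ l, g l y = 0) (h1 : ∀ l, Van y A (g l))
    (h2 : ∀ f, AnalyticAt ℂ f y → Van y A f → In y g f) :
    RE A c y ↔ c ≤ rk (fderiv ℂ (fun z l => g l z) y) := by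
  rw [fderiv_pi fun l => (hg l).differentiableAt]
  constructor
  · rintro ⟨h, a1, a2, a3⟩
    choose u b1 b2 using fun a => h2 _ (a1 a) (a3 a)
    have k : ∀ a v, fderiv ℂ (h a) y v = ∑ l, u a l y * fderiv ℂ (g l) y v := fun a v => by
      rw [Filter.EventuallyEq.fderiv_eq (b2 a), (HasFDerivAt.fun_sum fun l _ =>
        (b1 a l).differentiableAt.hasFDerivAt.fun_mul (hg l).differentiableAt.hasFDerivAt).fderiv]
      simp [h0]
    let Φ : Cm m →ₗ[ℂ] Cm c := Matrix.toLin' (Matrix.of fun a l => u a l y)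
    have k1 : Submodule.map Φ (LinearMap.range ((ContinuousLinearMap.pi fun l =>
        fderiv ℂ (g l) y : Cm n →L[ℂ] Cm m) : Cm n →ₗ[ℂ] Cm m)) = ⊤ := eq_top_iff.2 fun w _ => by
      obtain ⟨v, rfl⟩ := (ind_iff_surj _).1 a2 w
      exact ⟨_, ⟨v, rfl⟩, funext fun a => (k a v).symm⟩
    have k2 := Submodule.finrank_map_le Φ (LinearMap.range ((ContinuousLinearMap.pi fun l =>
      fderiv ℂ (g l) y : Cm n →L[ℂ] Cm m) : Cm n →ₗ[ℂ] Cm m))
    rwa [k1, finrank_top, Module.finrank_fin_fun] at k2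
  · intro h
    obtain ⟨σ, τ, k⟩ := (minor _ _ _ _).1 h
    exact ⟨fun a => g (σ a), fun a => hg _, LinearIndependent.of_comp (LinearMap.pi fun b =>
      (ContinuousLinearMap.apply ℂ ℂ (Pi.single (τ b) 1 : Cm n)).toLinearMap)
      (Matrix.linearIndependent_rows_of_det_ne_zero k), fun a => h1 _⟩

theorem an_re (h : AnE A x) (c : ℕ) : AnE {y | y ∈ A ∧ ¬ RE A c y} x := by
  obtain ⟨m, g, h1, h2, h3⟩ := h.car
  refine (h.inter (rkan _ n m c (fun y => fderiv ℂ (fun z l => g l z) y) x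
    (an_fderiv (AnalyticAt.pi h1)))).congr ?_
  filter_upwards [eventually_all.2 fun l => (h1 l).eventually_analyticAt, h2.eventually_nhds, h3]
    with y a b e
  refine and_congr_right fun k => ?_
  rw [re_iff a (b.self_of_nhds.1 k) (fun l => b.mono fun _ i j => i.1 j l) e, not_le]
  rfl

/-- a function which vanishes on `T` vanishes identically, if all such functions are critical -/
theorem zero_of {T : Set (Cm d)} {k₀ : Cm d} (h0 : k₀ ∈ T) (h : ∀ᶠ k in 𝓝 k₀, k ∈ T →
    ∀ u, AnalyticAt ℂ u k → Van k T u → fderiv ℂ u k = 0) {u : Cm d → ℂ} (hu : AnalyticAt ℂ u k₀)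
    (hv : Van k₀ T u) : ∀ᶠ k in 𝓝 k₀, u k = 0 := by
  by_contra hne
  obtain ⟨e, he⟩ := exists_order hu hne
  obtain ⟨j, -, hj⟩ := he.self_of_nhds (hv.self_of_nhds h0)
  have k : ∀ j, Van k₀ T (D u e j) := fun j => by
    induction j with
    | zero => exact hv
    | succ j ih =>
      filter_upwards [h, (D_analytic (e := e) hu j).eventually_analyticAt, ih.eventually_nhds]
        with k a b c hk
      exact congrArg (fun L : Cm d →L[ℂ] ℂ => L e) (a hk _ b c)
  exact hj (h.self_of_nhds h0 _ (D_analytic hu j) (k j))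

theorem sub_of (hA : AnE A y) (hy : y ∈ A) {h : Fin c → Cm n → ℂ} (h1 : ∀ a, AnalyticAt ℂ (h a) y)
    (h2 : LinearIndependent ℂ fun a => fderiv ℂ (h a) y) (h3 : ∀ a, Van y A (h a)) (hd : c + d = n)
    (h4 : ∀ᶠ z in 𝓝 y, z ∈ A → ¬ RE A (c + 1) z) : ∀ᶠ z in 𝓝 y, (∀ a, h a z = 0) → z ∈ A := by
  obtain ⟨Φ, P, a1, a2, -, a4⟩ := par (d := d) (AnalyticAt.pi h1) (by
    rw [fderiv_pi fun a => (h1 a).differentiableAt]
    exact (ind_iff_surj _).1 h2) (by simpa using hd)
  set ψ : Cm d → Cm n := fun k => Φ.symm (0, k) with hψ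
  have b1 : ∀ z ∈ Φ.source, (∀ a, h a z = 0) → Φ z = (0, P z) := fun z _ k => by
    rw [a2, show (fun a => h a z) = 0 from funext k]
  have b2 : ∀ z ∈ Φ.source, (∀ a, h a z = 0) → ψ (P z) = z := fun z hz k => by
    simp only [hψ, ← b1 z hz k, Φ.left_inv hz]
  have b3 := fun a => (h3 a).self_of_nhds hy
  have b4 : ∀ᶠ k in 𝓝 (P y), ((0 : Fin c → ℂ), k) ∈ Φ.target :=
    (continuous_const.prodMk continuous_id).continuousAt.eventually
      (Φ.open_target.mem_nhds (by simpa only [b1 y a1 b3, id] using Φ.map_source a1))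
  have b5 : ∀ k, ((0 : Fin c → ℂ), k) ∈ Φ.target → AnalyticAt ℂ ψ k := fun k hk =>
    (a4 _ hk).comp (analyticAt_const.prod analyticAt_id)
  have b6 : ∀ k, ((0 : Fin c → ℂ), k) ∈ Φ.target → (∀ a, h a (ψ k) = 0) ∧ P (ψ k) = k :=
    fun k hk => by
      have := (a2 _).symm.trans (Φ.right_inv hk)
      exact ⟨congrFun (congrArg Prod.fst this), congrArg Prod.snd this⟩
  have b7 : Tendsto ψ (𝓝 (P y)) (𝓝 y) := by
    simpa only [ContinuousAt, b2 y a1 b3] using (b5 _ b4.self_of_nhds).continuousAt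
  have b8 : ∀ᶠ z in 𝓝 y, LinearIndependent ℂ fun a => fderiv ℂ (h a) z :=
    (continuousAt_pi.2 fun a => (h1 a).fderiv.continuousAt).eventually h2.eventually
  have b9 : ∀ᶠ k in 𝓝 (P y), k ∈ ψ ⁻¹' A → ∀ u, AnalyticAt ℂ u k → Van k (ψ ⁻¹' A) u →
      fderiv ℂ u k = 0 := by
    filter_upwards [b4.eventually_nhds, b7.eventually (h4.and (b8.and
      ((eventually_all.2 fun a => (h1 a).eventually_analyticAt).and
        (eventually_all.2 h3).eventually_nhds)))] with k c1 ⟨c2, c3, c4, c5⟩ hk u hu hv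
    by_contra hne
    have c6 := c1.self_of_nhds
    have c7 : AnalyticAt ℂ u (P (ψ k)) := (b6 k c6).2.symm ▸ hu
    have c8 := (b5 k c6).differentiableAt
    have c9 : AnalyticAt ℂ (fun z => u (P z)) (ψ k) := c7.comp (P.analyticAt _)
    refine c2 hk ⟨Fin.cons (fun z => u (P z)) h, fun a => Fin.cases c9 c4 a, ?_,
      fun a => Fin.cases ?_ (fun a => c5.mono fun _ e e' => e a e') a⟩
    · have e : (fun a => fderiv ℂ (Fin.cons (α := fun _ => Cm n → ℂ) (fun z => u (P z)) h a) (ψ k)) =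
          Fin.cons (fderiv ℂ (fun z => u (P z)) (ψ k)) fun a => fderiv ℂ (h a) (ψ k) :=
        funext fun a => Fin.cases rfl (fun _ => rfl) a
      rw [e, linearIndependent_finCons]
      refine ⟨c3, fun hm => hne (ContinuousLinearMap.ext fun ξ => ?_)⟩
      obtain ⟨t, ht⟩ := (Submodule.mem_span_range_iff_exists_fun ℂ).1 hm
      have e1 : ∀ {f : Cm n → ℂ} {f' : Cm d → ℂ}, AnalyticAt ℂ f (ψ k) →
          (∀ᶠ w in 𝓝 k, f (ψ w) = f' w) → fderiv ℂ f (ψ k) (fderiv ℂ ψ k ξ) = fderiv ℂ f' k ξ :=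
        fun {f f'} i j => by
          rw [← Filter.EventuallyEq.fderiv_eq j, fderiv_fun_comp k i.differentiableAt c8]
          rfl
      rw [← e1 c9 (c1.mono fun w i => by rw [(b6 w i).2]), ← ht]
      simp [fun a => e1 (f' := fun _ => 0) (c4 a) (c1.mono fun w i => (b6 w i).1 a)]
    · have e2 : Tendsto P (𝓝 (ψ k)) (𝓝 k) := by
        simpa only [(b6 k c6).2] using P.continuous.tendsto (ψ k)
      filter_upwards [e2.eventually hv, c5, Φ.open_source.mem_nhds (Φ.map_target c6)] with z i j l hz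
      exact i (by rwa [mem_preimage, b2 z l fun a => j a hz])
  obtain ⟨m, g, d1, d2⟩ := hA
  have d3 : ∀ i, ∀ᶠ k in 𝓝 (P y), g i (ψ k) = 0 := fun i =>
    zero_of (by rwa [mem_preimage, b2 y a1 b3]) b9
      ((d1 i).comp_of_eq (b5 _ b4.self_of_nhds) (b2 y a1 b3))
      ((b7.eventually d2).mono fun _ e e' => e.1 e' i)
  filter_upwards [d2, P.continuous.continuousAt.eventually (eventually_all.2 d3),
    Φ.open_source.mem_nhds a1] with z e1 e2 e3 e4
  exact e1.2 fun i => b2 z e3 e4 ▸ e2 i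

end lin

variable {n c d : ℕ} {W : Type} [TopologicalSpace W] [ChartedSpace (Cm n) W]
  [IsManifold 𝓘(ℂ, Cm n) ω W] {A : Set W} {y : W} {e : Chart n W}

/-- `A` is near `y` contained in a submanifold of codimension `c` -/
def R (n : ℕ) [ChartedSpace (Cm n) W] (A : Set W) (c : ℕ) (y : W) : Prop :=
  ∃ h : Fin c → W → ℂ, Ind n h y ∧ ∀ a, ∀ᶠ z in 𝓝 y, z ∈ A → h a z = 0

theorem r_iff (he : At e y) : R n A c y ↔ RE (e.symm ⁻¹' A) c (e y) := by
  refine ⟨fun ⟨h, a, b⟩ => ⟨fun i z => h i (e.symm z), fun i => a.1 i e he, a.2 e he,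
    fun i => ev_symm he (b i)⟩, fun ⟨h, a, b, k⟩ => ⟨fun i z => h i (e z), .of_chart
      (fun i => hol_chart he (a i)) he ?_, fun i => ?_⟩⟩
  · have k : ∀ i, dd (fun z => h i (e z)) e y = fderiv ℂ (h i) (e y) := fun i =>
      Filter.EventuallyEq.fderiv_eq (by
        filter_upwards [e.open_target.mem_nhds (e.map_source he.2)] with z hz
        rw [e.right_inv hz])
    simpa only [k] using b
  · filter_upwards [(e.continuousAt he.2).eventually (k i), e.open_source.mem_nhds he.2]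
      with z e1 e2 e3 using e1 (by rwa [mem_preimage, e.left_inv e2])

theorem r_le (h : R n A c y) : c ≤ n := by
  obtain ⟨h, a, -⟩ := h
  simpa using LinearMap.finrank_le_finrank_of_surjective (f := (ContinuousLinearMap.pi fun a =>
    dd (h a) (chartAt (Cm n) y) y).toLinearMap) ((ind_iff_surj _).1 (a.2 _ (at_chartAt y)))

/-- the points which are not in a submanifold of codimension `c` -/
def Z (n : ℕ) [ChartedSpace (Cm n) W] (A : Set W) (c : ℕ) : Set W := {y | y ∈ A ∧ ¬ R n A c y}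

theorem an_Z (hA : An n A) (c : ℕ) : An n (Z n A c) := fun x => by
  have he := at_chartAt (n := n) x
  refine (AnAt.of_chart' he (an_re (AnAt.chart (hA x) he) c)).congr ?_
  filter_upwards [at_near he] with y hy
  simp only [Z, mem_preimage, mem_ofPred_eq, r_iff hy, (chartAt (Cm n) x).left_inv hy.2]

/-- the bad set -/
def B (n : ℕ) [ChartedSpace (Cm n) W] (A : Set W) (d : ℕ) : Set W :=
  if d ≤ n then Z n A (n - d) ∪ closure (A \ Z n A (n - d + 1)) else A

theorem an_B (hA : An n A) (d : ℕ) : An n (B n A d) := by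
  unfold B
  split_ifs
  exacts [(an_Z hA _).union (hA.clo (an_Z hA _)), hA]

theorem subM (hA : An n A) (d : ℕ) : SubM n d (A \ B n A d) := by
  rintro y ⟨h1, h2⟩
  have h3 := (an_B hA d).isClosed.isOpen_compl.mem_nhds h2
  unfold B at h2
  split_ifs at h2 with hd
  swap
  · exact (h2 h1).elim
  obtain ⟨h, a, b⟩ : R n A (n - d) y := by_contra fun k => h2 (.inl ⟨h1, k⟩)
  have he := at_chartAt (n := n) y
  set e := chartAt (Cm n) y
  have h4 := sub_of (d := d) (AnAt.chart (hA y) he) (by rwa [mem_preimage, e.left_inv he.2])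
    (fun i => a.1 i e he) (a.2 e he) (fun i => ev_symm he (b i)) (by omega) (by
      filter_upwards [ev_symm he ((isClosed_closure.isOpen_compl.eventually_mem fun k =>
        h2 (.inr k)).and (at_near he)), e.open_target.mem_nhds (e.map_source he.2)] with z i j k l
      rw [← e.right_inv j, ← r_iff i.2] at l
      exact i.1 (subset_closure ⟨k, fun k' => k'.2 l⟩))
  refine ⟨n - d, h, by omega, a, ?_⟩
  filter_upwards [ev_of_symm he (P := fun z => (∀ i, h i z = 0) → z ∈ A) h4, eventually_all.2 b, h3]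
    with z i j k using ⟨fun l a => j a l.1, fun l => ⟨i l, k⟩⟩

end Rg

open Rg in
theorem reg : REG := by
  classical
  intro n W _ _ _ _ _ A hA
  refine ⟨B n A, an_B hA, fun d => ?_, subM hA, ?_⟩
  · unfold B
    split_ifs
    exacts [union_subset (fun _ h => h.1) (closure_minimal sdiff_subset hA.isClosed), Subset.rfl]
  rw [← Finset.closure_biUnion]
  refine Subset.antisymm (fun y hy => mem_closure_iff.2 fun U hU hyU => ?_)
    (closure_minimal (iUnion₂_subset fun _ _ => sdiff_subset) hA.isClosed)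
  let p : ℕ → Prop := fun c => ∃ z ∈ U, z ∈ A ∧ R n A c z
  have h0 : p 0 := ⟨y, hyU, hy, Fin.elim0, ⟨fun i => i.elim0, fun _ _ =>
    linearIndependent_empty_type⟩, fun i => i.elim0⟩
  have h1 := Nat.findGreatest_le (P := p) n
  obtain ⟨z, a1, a2, a3⟩ : p (Nat.findGreatest p n) := Nat.findGreatest_spec (Nat.zero_le n) h0
  refine ⟨z, a1, mem_iUnion₂.2 ⟨n - Nat.findGreatest p n, Finset.mem_range.2 (by omega), a2, ?_⟩⟩
  rw [B, if_pos (Nat.sub_le _ _), Nat.sub_sub_self h1]
  rintro (k | k)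
  · exact k.2 a3
  · obtain ⟨w, b1, b2, b3⟩ := mem_closure_iff.1 k U hU a1
    have b4 : R n A (Nat.findGreatest p n + 1) w := by_contra fun k => b3 ⟨b2, k⟩
    exact Nat.findGreatest_is_greatest (Nat.lt_succ_self _) (r_le b4) ⟨w, b1, b2, b4⟩

end Vale.Agent.P281Z.Ana
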