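import Vale.Agent.P281Z.An.Defs
import Vale.Agent.P281Z.Mf.An
import Vale.Agent.P277Z.Oka.All

/-!
# P281, block AN: elementary properties of analytic sets
-/

open scoped Manifold ContDiff Topology
open Set Filter
open Vale.Agent.P272.K Vale.Agent.P277Z Vale.Agent.P277Z.Slc Vale.Agent.P277Z.Oka

set_option linter.unusedSectionVars false

noncomputable section

namespace Vale.Agent.P281Z

namespace Ana

section lin

variable {E : Type} [NormedAddCommGroup E] [NormedSpace ℂ E] {A B : Set E} {x : E}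

theorem AnE.of_fam {ι : Type} [Finite ι] (h : ι → E → ℂ) (hh : ∀ i, AnalyticAt ℂ (h i) x)
    (e : ∀ᶠ y in 𝓝 x, y ∈ A ↔ ∀ i, h i y = 0) : AnE A x := by
  obtain ⟨m, ⟨k⟩⟩ := Finite.exists_equiv_fin ι
  exact ⟨m, fun i => h (k.symm i), fun i => hh _, e.mono fun y hy =>
    hy.trans ⟨fun a i => a _, fun a i => by simpa using a (k i)⟩⟩

theorem AnE.congr (h : AnE A x) (e : ∀ᶠ y in 𝓝 x, y ∈ A ↔ y ∈ B) : AnE B x :=
  let ⟨m, g, hg, e'⟩ := h
  ⟨m, g, hg, by filter_upwards [e, e'] with y a b using a.symm.trans b⟩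

theorem AnE.near (h : AnE A x) : ∀ᶠ y in 𝓝 x, AnE A y := by
  obtain ⟨m, g, hg, e⟩ := h
  filter_upwards [eventually_all.2 fun i => (hg i).eventually_analyticAt, e.eventually_nhds]
    with y a b using ⟨m, g, a, b⟩

theorem anE_univ (x : E) : AnE univ x :=
  ⟨0, Fin.elim0, fun i => i.elim0, .of_forall fun _ => ⟨fun _ i => i.elim0, fun _ => trivial⟩⟩

theorem anE_empty (x : E) : AnE ∅ x :=
  ⟨1, fun _ _ => 1, fun _ => analyticAt_const, .of_forall fun _ =>
    ⟨fun h => h.elim, fun h => absurd (h 0) one_ne_zero⟩⟩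

theorem anE_zero {f : E → ℂ} (hf : AnalyticAt ℂ f x) : AnE {y | f y = 0} x :=
  ⟨1, fun _ => f, fun _ => hf, .of_forall fun _ => ⟨fun h _ => h, fun h => h 0⟩⟩

theorem AnE.inter (h : AnE A x) (h' : AnE B x) : AnE (A ∩ B) x := by
  obtain ⟨m, g, hg, e⟩ := h
  obtain ⟨m', g', hg', e'⟩ := h'
  refine AnE.of_fam (Sum.elim g g') (fun i => by cases i <;> simp [hg, hg']) ?_
  filter_upwards [e, e'] with y a b
  simp [a, b]

theorem AnE.union (h : AnE A x) (h' : AnE B x) : AnE (A ∪ B) x := by
  obtain ⟨m, g, hg, e⟩ := h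
  obtain ⟨m', g', hg', e'⟩ := h'
  refine AnE.of_fam (fun (i : Fin m × Fin m') y => g i.1 y * g' i.2 y)
    (fun i => (hg _).mul (hg' _)) ?_
  filter_upwards [e, e'] with y a b
  rw [mem_union, a, b]
  refine ⟨fun k i => k.elim (fun k => by simp [k]) fun k => by simp [k], fun k => ?_⟩
  by_contra hc
  rw [not_or, not_forall, not_forall] at hc
  obtain ⟨⟨i, hi⟩, j, hj⟩ := hc
  exact mul_ne_zero hi hj (k (i, j))

theorem anE_biUnion {ι : Type*} (s : Finset ι) {A : ι → Set E} (h : ∀ i ∈ s, AnE (A i) x) :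
    AnE (⋃ i ∈ s, A i) x := by
  classical
  induction s using Finset.induction_on with
  | empty => simpa using anE_empty x
  | insert a s _ ih =>
    rw [Finset.set_biUnion_insert]
    exact (h a (by simp)).union (ih fun i hi => h i (by simp [hi]))

theorem anE_iUnion {ι : Type*} [Finite ι] {A : ι → Set E} (h : ∀ i, AnE (A i) x) :
    AnE (⋃ i, A i) x := by
  have := Fintype.ofFinite ι
  simpa using anE_biUnion Finset.univ fun i _ => h i

theorem anE_iInter {ι : Type} [Finite ι] {A : ι → Set E} (h : ∀ i, AnE (A i) x) :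
    AnE (⋂ i, A i) x := by
  choose m g hg e using h
  refine AnE.of_fam (fun i : Σ i, Fin (m i) => g i.1 i.2) (fun i => hg _ _) ?_
  filter_upwards [eventually_all.2 e] with y hy
  simp only [mem_iInter, hy, Sigma.forall]

theorem AnE.comp {E' : Type} [NormedAddCommGroup E'] [NormedSpace ℂ E'] {φ : E' → E} {z : E'}
    (h : AnE A (φ z)) (hφ : AnalyticAt ℂ φ z) : AnE (φ ⁻¹' A) z :=
  let ⟨m, g, hg, e⟩ := h
  ⟨m, fun i y => g i (φ y), fun i => (hg i).comp hφ, hφ.continuousAt.eventually e⟩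

theorem AnE.mem_of_closure (h : AnE A x) (hx : x ∈ closure A) : x ∈ A := by
  obtain ⟨m, g, hg, e⟩ := h
  refine e.self_of_nhds.2 fun i => by_contra fun hi => ?_
  obtain ⟨y, a, b, c⟩ := ((mem_closure_iff_frequently.1 hx).and_eventually
    (e.and ((hg i).continuousAt.eventually_ne hi))).exists
  exact c (b.1 a i)

/-- closures are local -/
theorem closure_congr {X : Type*} [TopologicalSpace X] {A B : Set X} {x : X}
    (e : ∀ᶠ y in 𝓝 x, y ∈ A ↔ y ∈ B) : ∀ᶠ y in 𝓝 x, y ∈ closure A ↔ y ∈ closure B := by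
  filter_upwards [e.eventually_nhds] with y hy
  rw [mem_closure_iff_frequently, mem_closure_iff_frequently]
  exact frequently_congr hy

variable [FiniteDimensional ℂ E]

/-- the generators of the ideal of an analytic set -/
theorem AnE.car (h : AnE A x) : ∃ (m : ℕ) (g : Fin m → E → ℂ), (∀ l, AnalyticAt ℂ (g l) x) ∧
    (∀ᶠ y in 𝓝 x, y ∈ A ↔ ∀ l, g l y = 0) ∧
    ∀ᶠ y in 𝓝 x, ∀ f, AnalyticAt ℂ f y → Van y A f → In y g f := by
  obtain ⟨k, h, hh, e⟩ := h
  obtain ⟨m, g, hg, h1, h2⟩ := car_all E (Fin k) x h hh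
  have h3 : ∀ᶠ y in 𝓝 x, ∀ f, AnalyticAt ℂ f y → Van y A f → In y g f := by
    filter_upwards [h2, e.eventually_nhds] with y a b f hf hv
    exact a f hf (by filter_upwards [hv, b] with z c d hz using c (d.2 hz))
  refine ⟨m, g, hg, ?_, h3⟩
  filter_upwards [e, eventually_all.2 h1, eventually_all.2 fun i =>
    (h2.self_of_nhds (h i) (hh i) (.of_forall fun z hz => hz i)).van] with y a b c
  exact a.trans ⟨fun k l => b l k, fun k i => c i k⟩

theorem AnE.clo1 (h : AnE A x) {f : E → ℂ} (hf : AnalyticAt ℂ f x) :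
    AnE (closure (A ∩ {y | f y ≠ 0})) x := by
  obtain ⟨m, g, hg, h1, h2⟩ := h.car
  obtain ⟨k, r, hr, h3, h4⟩ := col_all E (Fin m) x g f hg hf
  refine ⟨k, r, hr, ?_⟩
  filter_upwards [h1.eventually_nhds, h2, h4, hf.eventually_analyticAt,
    eventually_all.2 fun l => (hr l).eventually_analyticAt,
    (eventually_all.2 fun l => (h3 l).van).eventually_nhds] with y a b c d e k
  refine ⟨fun hy l => by_contra fun hl => ?_, fun hy => by_contra fun hn => ?_⟩
  · obtain ⟨z, p, q, s, t⟩ := ((mem_closure_iff_frequently.1 hy).and_eventually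
      (a.and (k.and ((e l).continuousAt.eventually_ne hl)))).exists
    exact mul_ne_zero t p.2 (s l (q.1 p.1))
  · rw [mem_closure_iff_frequently, not_frequently] at hn
    have h5 := c (fun _ => 1) analyticAt_const ((b f d (hn.mono fun z hz hA =>
      by_contra fun h0 => hz ⟨hA, h0⟩)).congr (.of_forall fun z => (one_mul _).symm))
    exact one_ne_zero (h5.van.self_of_nhds hy)

/-- the closure of a difference of analytic sets is analytic -/
theorem AnE.clo (h : AnE A x) (h' : AnE B x) : AnE (closure (A \ B)) x := by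
  obtain ⟨m, g, hg, e⟩ := h'
  have h1 := anE_iUnion fun i => h.clo1 (hg i)
  rw [← closure_iUnion_of_finite] at h1
  refine h1.congr (closure_congr (e.mono fun y hy => ?_))
  simp only [mem_iUnion, mem_inter_iff, Set.mem_sdiff, hy, not_forall, exists_and_left]
  rfl

end lin

section man

variable {n : ℕ} {W : Type} [TopologicalSpace W] [ChartedSpace (Cm n) W] {A B : Set W} {x : W}

theorem ev_symm {e : Chart n W} (he : At e x) {P : W → Prop} (h : ∀ᶠ y in 𝓝 x, P y) :
    ∀ᶠ z in 𝓝 (e x), P (e.symm z) := (tendsto_symm he).eventually h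

theorem ev_of_symm {e : Chart n W} (he : At e x) {P : W → Prop}
    (h : ∀ᶠ z in 𝓝 (e x), P (e.symm z)) : ∀ᶠ y in 𝓝 x, P y := by
  filter_upwards [(e.continuousAt he.2).eventually h, e.open_source.mem_nhds he.2] with y a b
  rwa [e.left_inv b] at a

theorem AnAt.congr (h : AnAt n A x) (e : ∀ᶠ y in 𝓝 x, y ∈ A ↔ y ∈ B) : AnAt n B x :=
  let ⟨m, g, hg, e'⟩ := h
  ⟨m, g, hg, by filter_upwards [e, e'] with y a b using a.symm.trans b⟩

theorem AnAt.chart (h : AnAt n A x) {e : Chart n W} (he : At e x) : AnE (e.symm ⁻¹' A) (e x) :=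
  let ⟨m, g, hg, k⟩ := h
  ⟨m, fun i z => g i (e.symm z), fun i => hg i e he, ev_symm he k⟩

theorem AnAt.of_not_mem (hA : IsClosed A) (hx : x ∉ A) : AnAt n A x :=
  ⟨1, fun _ _ => 1, fun _ _ _ => analyticAt_const, by
    filter_upwards [hA.isOpen_compl.mem_nhds hx] with y hy
    exact ⟨fun h => absurd h hy, fun h => absurd (h 0) one_ne_zero⟩⟩

theorem AnAt.mem_of_closure (h : AnAt n A x) (hx : x ∈ closure A) : x ∈ A := by
  obtain ⟨m, g, hg, e⟩ := h
  refine e.self_of_nhds.2 fun i => by_contra fun hi => ?_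
  obtain ⟨y, a, b, c⟩ := ((mem_closure_iff_frequently.1 hx).and_eventually
    (e.and ((hg i).continuousAt.eventually_ne hi))).exists
  exact c (b.1 a i)

variable [IsManifold 𝓘(ℂ, Cm n) ω W]

theorem hol_chart {e : Chart n W} (he : At e x) {g : Cm n → ℂ} (hg : AnalyticAt ℂ g (e x)) :
    Hol n (fun y => g (e y)) x :=
  Hol.of_chart he (hg.congr (by
    filter_upwards [e.open_target.mem_nhds (e.map_source he.2)] with z hz
    rw [e.right_inv hz]))

theorem AnAt.of_chart' {e : Chart n W} (he : At e x) {T : Set (Cm n)} (h : AnE T (e x)) :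
    AnAt n (e ⁻¹' T) x :=
  let ⟨m, g, hg, k⟩ := h
  ⟨m, fun i y => g i (e y), fun i => hol_chart he (hg i), (e.continuousAt he.2).eventually k⟩

theorem AnAt.of_chart {e : Chart n W} (he : At e x) (h : AnE (e.symm ⁻¹' A) (e x)) :
    AnAt n A x :=
  (AnAt.of_chart' he h).congr (by
    filter_upwards [e.open_source.mem_nhds he.2] with y hy
    rw [mem_preimage, mem_preimage, e.left_inv hy])

theorem anAt_iff_chart {e : Chart n W} (he : At e x) :
    AnAt n A x ↔ AnE (e.symm ⁻¹' A) (e x) := ⟨fun h => h.chart he, AnAt.of_chart he⟩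

theorem AnAt.near (h : AnAt n A x) : ∀ᶠ y in 𝓝 x, AnAt n A y := by
  obtain ⟨m, g, hg, e⟩ := h
  filter_upwards [eventually_all.2 fun i => (hg i).near, e.eventually_nhds]
    with y a b using ⟨m, g, a, b⟩

theorem anAt_zero {f : W → ℂ} (hf : Hol n f x) : AnAt n {y | f y = 0} x :=
  ⟨1, fun _ => f, fun _ => hf, .of_forall fun _ => ⟨fun h _ => h, fun h => h 0⟩⟩

theorem AnAt.inter (h : AnAt n A x) (h' : AnAt n B x) : AnAt n (A ∩ B) x :=
  .of_chart (at_chartAt x) ((h.chart (at_chartAt x)).inter (h'.chart (at_chartAt x)))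

theorem AnAt.union (h : AnAt n A x) (h' : AnAt n B x) : AnAt n (A ∪ B) x :=
  .of_chart (at_chartAt x) ((h.chart (at_chartAt x)).union (h'.chart (at_chartAt x)))

theorem anAt_iUnion {ι : Type*} [Finite ι] {A : ι → Set W} (h : ∀ i, AnAt n (A i) x) :
    AnAt n (⋃ i, A i) x :=
  .of_chart (at_chartAt x) (by
    rw [preimage_iUnion]; exact anE_iUnion fun i => (h i).chart (at_chartAt x))

theorem anAt_iInter {ι : Type} [Finite ι] {A : ι → Set W} (h : ∀ i, AnAt n (A i) x) :
    AnAt n (⋂ i, A i) x :=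
  .of_chart (at_chartAt x) (by
    rw [preimage_iInter]; exact anE_iInter fun i => (h i).chart (at_chartAt x))

theorem closure_chart {e : Chart n W} (he : At e x) (A : Set W) :
    e x ∈ closure (e.symm ⁻¹' A) ↔ x ∈ closure A := by
  rw [mem_closure_iff_frequently, mem_closure_iff_frequently]
  exact not_congr ⟨fun h => ev_of_symm he h, fun h => ev_symm he h⟩

/-- the closure of a difference of analytic sets is analytic -/
theorem AnAt.clo (h : AnAt n A x) (h' : AnAt n B x) : AnAt n (closure (A \ B)) x := by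
  have he := at_chartAt (n := n) x
  refine (AnAt.of_chart' he ((h.chart he).clo (h'.chart he))).congr ?_
  filter_upwards [at_near he] with y hy
  exact closure_chart hy (A \ B)

/-- the identity theorem -/
theorem AnAt.near_interior (h : AnAt n A x) (hx : x ∈ closure (interior A)) :
    x ∈ interior A := by
  have he := at_chartAt (n := n) x
  set e := chartAt (Cm n) x
  obtain ⟨m, g, hg, k⟩ := h.chart he
  obtain ⟨r, hr, hb⟩ := Metric.eventually_nhds_iff_ball.1
    ((eventually_all.2 fun i => (hg i).eventually_analyticAt).and k)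
  obtain ⟨y, a, b, c⟩ := ((mem_closure_iff_frequently.1 hx).and_eventually
    ((at_near he).and ((e.continuousAt he.2).eventually (Metric.ball_mem_nhds _ hr)))).exists
  refine mem_interior_iff_mem_nhds.2 (ev_of_symm he ?_)
  filter_upwards [Metric.ball_mem_nhds _ hr] with z hz
  refine (hb z hz).2.2 fun i => AnalyticOnNhd.eqOn_zero_of_preconnected_of_eventuallyEq_zero
    (fun w hw => (hb w hw).1 i) (convex_ball _ _).isPreconnected c ?_ hz
  filter_upwards [ev_symm b (mem_interior_iff_mem_nhds.1 a), Metric.isOpen_ball.mem_nhds c]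
    with w p q using (hb w q).2.1 p i

end man

end Ana

open Ana

section glob

variable {n : ℕ} {W : Type} [TopologicalSpace W] [ChartedSpace (Cm n) W] {A B : Set W}

theorem An.isClosed (h : An n A) : IsClosed A :=
  closure_subset_iff_isClosed.1 fun x hx => AnAt.mem_of_closure (h x) hx

theorem an_of_isClosed (hA : IsClosed A) (h : ∀ x ∈ A, AnAt n A x) : An n A := fun x =>
  (em (x ∈ A)).elim (h x) (AnAt.of_not_mem hA)

theorem an_of_isClopen (hA : IsClopen A) : An n A :=
  an_of_isClosed hA.1 fun _ hx => AnAt.congr (an_univ _) (by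
    filter_upwards [hA.2.mem_nhds hx] with y hy using ⟨fun _ => hy, fun _ => trivial⟩)

variable [IsManifold 𝓘(ℂ, Cm n) ω W]

theorem an_iUnion {ι : Type*} [Finite ι] {A : ι → Set W} (h : ∀ i, An n (A i)) :
    An n (⋃ i, A i) := fun x => anAt_iUnion fun i => h i x

theorem an_iInter {ι : Type} [Finite ι] {A : ι → Set W} (h : ∀ i, An n (A i)) :
    An n (⋂ i, A i) := fun x => anAt_iInter fun i => h i x

theorem An.clo (h : An n A) (h' : An n B) : An n (closure (A \ B)) := fun x =>
  AnAt.clo (h x) (h' x)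

theorem An.isClopen_interior (h : An n A) : IsClopen (interior A) :=
  ⟨closure_subset_iff_isClosed.1 fun x hx => AnAt.near_interior (h x) hx, isOpen_interior⟩

/-- a proper analytic subset of a connected manifold is nowhere dense -/
theorem An.dense_compl [PreconnectedSpace W] (h : An n A) (hne : A ≠ univ) : Dense Aᶜ := by
  rw [← interior_eq_empty_iff_dense_compl]
  exact (isClopen_iff.1 h.isClopen_interior).resolve_right fun k => hne (interior_eq_univ.1 k)

theorem thin_iUnion {ι : Type*} [Finite ι] {A : ι → Set W} (h : ∀ i, Thin n (A i)) :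
    Thin n (⋃ i, A i) := by
  refine ⟨an_iUnion fun i => (h i).1, ?_⟩
  induction ι using Finite.induction_empty_option with
  | of_equiv e ih => rw [← e.surjective.iUnion_comp]; exact ih fun i => h _
  | h_empty => simp
  | h_option ih =>
    rw [iUnion_option, compl_union]
    exact (h none).2.inter_of_isOpen_left (ih fun i => h _) (h none).1.isClosed.isOpen_compl

end glob

section map

variable {n p : ℕ} {X Y : Type} [TopologicalSpace X] [ChartedSpace (Cm n) X]
  [IsManifold 𝓘(ℂ, Cm n) ω X] [TopologicalSpace Y] [ChartedSpace (Cm p) Y]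
  [IsManifold 𝓘(ℂ, Cm p) ω Y] {f : X → Y}

theorem an_of_contMDiffAt {x : X} (hf : ContMDiffAt 𝓘(ℂ, Cm n) 𝓘(ℂ, Cm p) ω f x)
    {e : Chart n X} {e' : Chart p Y} (he : At e x) (he' : At e' (f x)) :
    AnalyticAt ℂ (fun z => e' (f (e.symm z))) (e x) := by
  have h1 := contMDiffAt_symm_of_mem_maximalAtlas (I := 𝓘(ℂ, Cm n)) (n := ω)
    (IsManifold.subset_maximalAtlas he.1) (e.map_source he.2)
  have h2 := contMDiffAt_of_mem_maximalAtlas (I := 𝓘(ℂ, Cm p)) (n := ω)
    (IsManifold.subset_maximalAtlas he'.1) he'.2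
  have h3 := (h2.comp x hf).comp_of_eq h1 (e.left_inv he.2)
  exact (contMDiffAt_iff_contDiffAt.1 h3).analyticAt

theorem contMDiffAt_of_an {x : X} (hc : ContinuousAt f x) {e : Chart n X} {e' : Chart p Y}
    (he : At e x) (he' : At e' (f x)) (h : AnalyticAt ℂ (fun z => e' (f (e.symm z))) (e x)) :
    ContMDiffAt 𝓘(ℂ, Cm n) 𝓘(ℂ, Cm p) ω f x := by
  have h1 := contMDiffAt_of_mem_maximalAtlas (I := 𝓘(ℂ, Cm n)) (n := ω)
    (IsManifold.subset_maximalAtlas he.1) he.2
  have h2 := contMDiffAt_symm_of_mem_maximalAtlas (I := 𝓘(ℂ, Cm p)) (n := ω)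
    (IsManifold.subset_maximalAtlas he'.1) (e'.map_source he'.2)
  have h3 := (contMDiffAt_iff_contDiffAt.2 (h.contDiffAt (n := ω))).comp x h1
  refine (h2.comp_of_eq h3 (by simp [e.left_inv he.2])).congr_of_eventuallyEq ?_
  filter_upwards [e.open_source.mem_nhds he.2, hc.eventually (e'.open_source.mem_nhds he'.2)]
    with y a b
  simp [e.left_inv a, e'.left_inv b]

theorem HolM.an (hf : HolM n p f) {x : X} {e : Chart n X} {e' : Chart p Y} (he : At e x)
    (he' : At e' (f x)) : AnalyticAt ℂ (fun z => e' (f (e.symm z))) (e x) :=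
  an_of_contMDiffAt (hf x) he he'

theorem HolM.coord (hf : HolM n p f) {x : X} {e' : Chart p Y} (he' : At e' (f x)) (i : Fin p) :
    Hol n (fun y => e' (f y) i) x := fun _ he => analyticAt_pi_iff.1 (hf.an he he') i

theorem holM_of (hc : Continuous f) (h : ∀ x, ∃ e' : Chart p Y, At e' (f x) ∧
    ∀ i, Hol n (fun y => e' (f y) i) x) : HolM n p f := fun x =>
  let ⟨_, he', k⟩ := h x
  contMDiffAt_of_an hc.continuousAt (at_chartAt x) he' (AnalyticAt.pi fun i => k i _ (at_chartAt x))

theorem Ana.AnAt.preimage (hf : HolM n p f) {B : Set Y} {x : X} (h : AnAt p B (f x)) :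
    AnAt n (f ⁻¹' B) x :=
  let ⟨m, g, hg, e⟩ := h
  ⟨m, fun i y => g i (f y), fun i => hf.hol (hg i), hf.cont.continuousAt.eventually e⟩

theorem An.preimage {B : Set Y} (h : An p B) (hf : HolM n p f) : An n (f ⁻¹' B) := fun x =>
  AnAt.preimage hf (h (f x))

end map

end Vale.Agent.P281Z
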