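import Vale.Agent.P281Z.An.Rem
import Vale.Agent.P281Z.An.Reg
import Vale.Agent.P281Z.An.Img
import Vale.Agent.P281Z.An.Crit
import Vale.Agent.P281Z.Rs.Clo

/-!
# P281, block AN: the proper mapping theorem and images, from the resolution theorem
-/

namespace Vale.Agent.P281Z

theorem idl : IDL := fun N M B h => let ⟨I, k, _⟩ := Rs.idl N M B h; ⟨I, k⟩

theorem rem_of_res (h : RES) : REM := Ana.rem_of h idl Ana.reg

theorem img_of_res (h : RES) : IMG := Ana.img_of Ana.reg (rem_of_res h) Ana.rkan Ana.cvrk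

theorem gen_of_res (h : RES) : GEN := Ana.gen_of (rem_of_res h) Ana.crit

theorem par_of_res (h : RES) : Ana.PAR := Ana.par_of h idl Ana.reg

end Vale.Agent.P281Z
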