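import Vale.Agent.P281Z.An.Basic
import Vale.Agent.P277Z.Pj.Bdd

/-!
# P281, block AN: the rank of a holomorphic map
-/

open scoped Topology
open Set Filter Metric
open Vale.Agent.P272.K Vale.Agent.P277Z.Pj Vale.Agent.P277.H762

noncomputable section

namespace Vale.Agent.P281Z.Ana

theorem exists_rows {m n : Type} [Fintype m] [Fintype n] {c : ℕ} {M : Matrix m n ℂ}
    (h : c ≤ M.rank) : ∃ σ : Fin c → m, LinearIndependent ℂ fun a => M (σ a) := by
  obtain ⟨κ, a, ha, h1, h2⟩ := exists_linearIndependent' ℂ M.row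
  have := Finite.of_injective a ha
  have := Fintype.ofFinite κ
  have h3 : c ≤ Fintype.card κ := by
    rw [linearIndependent_iff_card_eq_finrank_span.1 h2, Set.finrank, h1,
      ← Matrix.rank_eq_finrank_span_row]
    exact h
  obtain ⟨e⟩ : Nonempty (Fin c ↪ κ) := Function.Embedding.nonempty_of_card_le (by simpa using h3)
  exact ⟨fun i => a (e i), h2.comp e e.injective⟩

theorem rank_iff {m n : Type} [Fintype m] [Fintype n] {c : ℕ} {M : Matrix m n ℂ} :
    c ≤ M.rank ↔ ∃ (σ : Fin c → m) (τ : Fin c → n), (M.submatrix σ τ).det ≠ 0 := by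
  refine ⟨fun h => ?_, fun ⟨σ, τ, h⟩ => ?_⟩
  · obtain ⟨τ, hτ⟩ := exists_rows (M := M.transpose) (c := c) (by rwa [Matrix.rank_transpose])
    have h1 : (M.submatrix id τ).transpose.rank = c :=
      (LinearIndependent.rank_matrix (M := (M.submatrix id τ).transpose) hτ).trans (by simp)
    obtain ⟨σ, hσ⟩ := exists_rows (M := M.submatrix id τ) (c := c)
      (by rw [← Matrix.rank_transpose, h1])
    exact ⟨σ, τ, ((Matrix.isUnit_iff_isUnit_det _).1
      ((Matrix.linearIndependent_rows_iff_isUnit (A := M.submatrix σ τ)).1 hσ)).ne_zero⟩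
  · have h1 := Matrix.rank_of_isUnit _ ((Matrix.isUnit_iff_isUnit_det _).2 (Ne.isUnit h))
    have h2 := Matrix.rank_submatrix_le M σ τ
    rwa [h1, Fintype.card_fin] at h2

variable {n m k : ℕ}

theorem rk_eq (L : Cm n →L[ℂ] Cm m) :
    rk L = (LinearMap.toMatrix' (L : Cm n →ₗ[ℂ] Cm m)).rank := by
  rw [Matrix.rank, ← Matrix.toLin'_apply', Matrix.toLin'_toMatrix', rk]

theorem minor : MINOR := fun n m c L => by
  rw [rk_eq, rank_iff]
  rfl

theorem rk_le_left (L : Cm n →L[ℂ] Cm m) : rk L ≤ n :=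
  (LinearMap.finrank_range_le _).trans (by simp)

theorem rk_le_right (L : Cm n →L[ℂ] Cm m) : rk L ≤ m := (Submodule.finrank_le _).trans (by simp)

theorem rk_comp_le_left (A : Cm m →L[ℂ] Cm k) (B : Cm n →L[ℂ] Cm m) : rk (A.comp B) ≤ rk A :=
  Submodule.finrank_mono (LinearMap.range_comp_le_range (B : Cm n →ₗ[ℂ] Cm m) (A : Cm m →ₗ[ℂ] Cm k))

theorem rk_comp_le_right (A : Cm m →L[ℂ] Cm k) (B : Cm n →L[ℂ] Cm m) : rk (A.comp B) ≤ rk B := by
  rw [rk, ContinuousLinearMap.toLinearMap_comp, LinearMap.range_comp]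
  exact Submodule.finrank_map_le _ _

theorem rk_eq_iff_surj (L : Cm n →L[ℂ] Cm m) : rk L = m ↔ Function.Surjective L := by
  rw [← ContinuousLinearMap.coe_coe, ← LinearMap.range_eq_top]
  exact ⟨fun h => Submodule.eq_top_of_finrank_eq (h.trans (by simp)), fun h => by rw [rk, h]; simp⟩

theorem an_minor {E : Type} [NormedAddCommGroup E] [NormedSpace ℂ E] {c : ℕ}
    {L : E → Cm n →L[ℂ] Cm m} {x : E} (h : ∀ v i, AnalyticAt ℂ (fun y => L y v i) x)
    (σ : Fin c → Fin m) (τ : Fin c → Fin n) : AnalyticAt ℂ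
      (fun y => (Matrix.of fun a b => L y (Pi.single (τ b) 1) (σ a)).det) x := by
  simp only [Matrix.det_apply', Matrix.of_apply]
  exact Finset.analyticAt_fun_sum _ fun s _ => analyticAt_const.mul
    (Finset.analyticAt_fun_prod _ fun i _ => h _ _)

theorem rkan : RKAN := fun E _ _ n m c L x h =>
  AnE.of_fam (fun (q : (Fin c → Fin m) × (Fin c → Fin n)) y =>
    (Matrix.of fun a b => L y (Pi.single (q.2 b) 1) (q.1 a)).det) (fun q => an_minor h _ _)
    (.of_forall fun y => by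
      rw [mem_ofPred_eq, ← not_le, minor]
      simp)

theorem an_fderiv {g : Cm n → Cm m} {z : Cm n} (hg : AnalyticAt ℂ g z) (v : Cm n) (i : Fin m) :
    AnalyticAt ℂ (fun y => fderiv ℂ g y v i) z :=
  analyticAt_pi_iff.1 (((ContinuousLinearMap.apply ℂ (Cm m) v).analyticAt _).comp hg.fderiv) i

theorem rk_lsc {X : Type*} [TopologicalSpace X] {L : X → Cm n →L[ℂ] Cm m} {x : X} {c : ℕ}
    (h : ContinuousAt L x) (hc : c ≤ rk (L x)) : ∀ᶠ y in 𝓝 x, c ≤ rk (L y) := by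
  obtain ⟨σ, τ, k⟩ := (minor _ _ _ _).1 hc
  have h1 := (an_minor (L := id) (x := L x) (fun v i => (((ContinuousLinearMap.proj i).comp
    (ContinuousLinearMap.apply ℂ (Cm m) v)).analyticAt _)) σ τ).continuousAt.comp h
  exact (h1.eventually_ne k).mono fun y hy => (minor _ _ _ _).2 ⟨σ, τ, hy⟩

/-- the constant rank theorem at a point of maximal rank -/
theorem cv_max {U : Set (Cm n)} (hU : IsOpen U) {g : Cm n → Cm m} (hg : ∀ z ∈ U, AnalyticAt ℂ g z)
    {p : Cm n} (hp : p ∈ U) (hmax : ∀ z ∈ U, rk (fderiv ℂ g z) ≤ rk (fderiv ℂ g p))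
    (hk : rk (fderiv ℂ g p) ≤ k) : ∃ N ∈ 𝓝 p, Cv k (g '' N) := by
  set R := LinearMap.range (fderiv ℂ g p : Cm n →ₗ[ℂ] Cm m)
  set K := LinearMap.ker (fderiv ℂ g p : Cm n →ₗ[ℂ] Cm m)
  obtain ⟨π₀, hπ⟩ := R.subtype.exists_leftInverse_of_injective (by simp)
  obtain ⟨κ₀, hκ⟩ := K.subtype.exists_leftInverse_of_injective (by simp)
  let π : Cm m →L[ℂ] R := LinearMap.toContinuousLinearMap π₀
  let κ : Cm n →L[ℂ] K := LinearMap.toContinuousLinearMap κ₀
  have hdim : Module.finrank ℂ (Cm n) = Module.finrank ℂ (R × K) := by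
    rw [Module.finrank_prod]
    exact (LinearMap.finrank_range_add_finrank_ker _).symm
  have hi : Function.Injective ((π.comp (fderiv ℂ g p)).prod κ) :=
    (injective_iff_map_eq_zero _).2 fun h hh => by
      have h1 : π₀ (fderiv ℂ g p h) = 0 := congrArg Prod.fst hh
      have h2 : κ₀ h = 0 := congrArg Prod.snd hh
      have h3 : fderiv ℂ g p h = 0 := congrArg Subtype.val
        ((DFunLike.congr_fun hπ ⟨fderiv ℂ g p h, h, rfl⟩).symm.trans h1)
      exact congrArg Subtype.val ((DFunLike.congr_fun hκ ⟨h, h3⟩).symm.trans h2)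
  exact Bdd.cv_loc hU hg π κ hmax hp (LinearMap.linearEquivOfInjective
    (((π.comp (fderiv ℂ g p)).prod κ : Cm n →L[ℂ] R × K) : Cm n →ₗ[ℂ] R × K) hi
      hdim).toContinuousLinearEquiv rfl hk

theorem cvrk : CVRK := by
  intro n m k
  induction n with
  | zero =>
    intro U g _ _
    refine ⟨fun _ => univ, fun _ _ => g 0, fun _ => isOpen_univ, fun _ _ _ => analyticAt_const, ?_⟩
    rintro _ ⟨z, -, rfl⟩
    exact mem_iUnion.2 ⟨0, 0, trivial, congrArg g (Subsingleton.elim _ _)⟩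
  | succ n ih =>
    intro U g hU hg
    refine Bdd.cv_image_of_local fun x hx => ?_
    obtain ⟨ρ, hρ, hB⟩ := Metric.isOpen_iff.1 hU x hx.1
    refine ⟨_, ball_mem_nhds x hρ, ?_⟩
    have hg' : ∀ z ∈ ball x ρ, AnalyticAt ℂ g z := fun z hz => hg z (hB hz)
    obtain ⟨p, hp, hmax⟩ : ∃ p ∈ ball x ρ, ∀ z ∈ ball x ρ,
        rk (fderiv ℂ g z) ≤ rk (fderiv ℂ g p) := by
      have h2 : BddAbove ((fun z => rk (fderiv ℂ g z)) '' ball x ρ) := ⟨m, by
        rintro _ ⟨z, -, rfl⟩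
        exact rk_le_right _⟩
      obtain ⟨p, hp, h3⟩ := Nat.sSup_mem ((nonempty_ball.2 hρ).image _) h2
      exact ⟨p, hp, fun z hz => (le_csSup h2 (mem_image_of_mem _ hz)).trans h3.ge⟩
    obtain ⟨σ, τ, hJ⟩ := (minor _ _ _ _).1 (le_refl (rk (fderiv ℂ g p)))
    have hJa := fun z (hz : z ∈ ball x ρ) => an_minor (an_fderiv (hg' z hz)) σ τ
    obtain ⟨W, γ, a1, a2, a3⟩ := Vale.Agent.P277.H622.stB1 n _ _ isOpen_ball hJa fun z hz h0 =>
      hJ (AnalyticOnNhd.eqOn_zero_of_preconnected_of_eventuallyEq_zero hJa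
        (convex_ball _ _).isPreconnected hz h0 hp)
    have h1 := cv_iUnion fun l => ih (W l) (fun q => g (γ l q)) (a1 l)
      fun q hq => (hg' _ (a2 l q hq).2).comp (a2 l q hq).1
    have h2 : Cv k (g '' {z | z ∈ ball x ρ ∧ rk (fderiv ℂ g z) ≤ k ∧
        rk (fderiv ℂ g p) ≤ rk (fderiv ℂ g z)}) := Bdd.cv_image_of_local fun z hz => by
      obtain ⟨N, hN, h4⟩ := cv_max (k := k) isOpen_ball hg' hz.1
        (fun w hw => (hmax w hw).trans hz.2.2) hz.2.1
      exact ⟨N, hN, h4.mono (image_mono inter_subset_left)⟩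
    refine (h1.union h2).mono ?_
    rintro _ ⟨z, hz, rfl⟩
    by_cases h : rk (fderiv ℂ g p) ≤ rk (fderiv ℂ g z)
    · exact Or.inr ⟨z, ⟨hz.1, hz.2.2, h⟩, rfl⟩
    · obtain ⟨l, q, hq, rfl⟩ := mem_iUnion.1 (a3 (show z ∈ {z | z ∈ ball x ρ ∧ _ = 0} from
        ⟨hz.1, by_contra fun h0 => h ((minor _ _ _ _).2 ⟨σ, τ, h0⟩)⟩))
      refine Or.inl (mem_iUnion.2 ⟨l, q, ⟨hq, le_trans ?_ hz.2.2⟩, rfl⟩)
      rw [fderiv_fun_comp q (hg' _ hz.1).differentiableAt (a2 l q hq).1.differentiableAt]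
      exact rk_comp_le_left _ _

end Vale.Agent.P281Z.Ana
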