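import Vale.Agent.P281Z.Spec
import Vale.Agent.P277Z.Slc.Basic
import Vale.Agent.P277Z.Pj.Defs

/-!
# P281, block AN: analytic subsets of complex manifolds (definitions and statements)
-/

open scoped Manifold ContDiff Topology
open Set Filter
open Vale.Agent.P272.K Vale.Agent.P277Z Vale.Agent.P277Z.Slc
open Vale.Agent.P277.H762 (Cv)

noncomputable section

namespace Vale.Agent.P281Z.Ana

/-- `A` is analytic at the point `x` of a normed space -/
def AnE {E : Type} [NormedAddCommGroup E] [NormedSpace ℂ E] (A : Set E) (x : E) : Prop :=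
  ∃ (m : ℕ) (h : Fin m → E → ℂ), (∀ i, AnalyticAt ℂ (h i) x) ∧
    ∀ᶠ y in 𝓝 x, y ∈ A ↔ ∀ i, h i y = 0

/-- the rank of a linear map -/
def rk {n m : ℕ} (L : Cm n →L[ℂ] Cm m) : ℕ :=
  Module.finrank ℂ (LinearMap.range (L : Cm n →ₗ[ℂ] Cm m))

section man

variable (n : ℕ) {W : Type} [TopologicalSpace W] [ChartedSpace (Cm n) W]

/-- `A` is analytic at `x` -/
def AnAt (A : Set W) (x : W) : Prop :=
  ∃ (m : ℕ) (h : Fin m → W → ℂ), (∀ i, Hol n (h i) x) ∧ ∀ᶠ y in 𝓝 x, y ∈ A ↔ ∀ i, h i y = 0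

theorem an_iff {A : Set W} : An n A ↔ ∀ x, AnAt n A x := Iff.rfl

end man

/-- (MINOR) the rank is the size of the largest minor which is not zero -/
def MINOR : Prop :=
  ∀ (n m c : ℕ) (L : Cm n →L[ℂ] Cm m), c ≤ rk L ↔ ∃ (σ : Fin c → Fin m) (τ : Fin c → Fin n),
    (Matrix.of fun a b => L (Pi.single (τ b) 1) (σ a)).det ≠ 0

/-- (RKAN) the rank loci of an analytic family of linear maps are analytic -/
def RKAN : Prop :=
  ∀ (E : Type) [NormedAddCommGroup E] [NormedSpace ℂ E] (n m c : ℕ) (L : E → Cm n →L[ℂ] Cm m)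
    (x : E), (∀ v i, AnalyticAt ℂ (fun y => L y v i) x) → AnE {y | rk (L y) < c} x

/-- (CVRK) the image of the set of the points of rank at most `k` has dimension at most `k` -/
def CVRK : Prop :=
  ∀ (n m k : ℕ) (U : Set (Cm n)) (g : Cm n → Cm m), IsOpen U → (∀ z ∈ U, AnalyticAt ℂ g z) →
    Cv k (g '' {z | z ∈ U ∧ rk (fderiv ℂ g z) ≤ k})

/-- (REG) the regular points of dimension `d` -/
def REG : Prop :=
  ForW fun n W _ _ => ∀ A : Set W, An n A → ∃ B : ℕ → Set W, (∀ d, An n (B d)) ∧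
    (∀ d, B d ⊆ A) ∧ (∀ d, SubM n d (A \ B d)) ∧
    A = ⋃ d ∈ Finset.range (n + 1), closure (A \ B d)

/-- (REML) the image of a proper holomorphic map from a manifold is analytic -/
def REML : Prop :=
  ForW fun n W _ _ => ∀ (N : ℕ) (O : Set W) (t : W → Cm N) (Ω : Set (Cm N)),
    Pj.Prp n O t Ω → ∀ z ∈ Ω, AnE (t '' O) z

/-- (REMM) the image of a compact manifold is analytic -/
def REMM : Prop :=
  ∀ (n p : ℕ) (V : Mf n) (Y : Mf p) (f : V.X → Y.X), HolM n p f → An p (range f)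

/-- (PAR) analytic sets are finite unions of images of compact manifolds -/
def PAR : Prop :=
  ∀ (n : ℕ) (M : Mf n) (A : Set M.X), An n A → ∃ (V : ∀ d : Fin (n + 1), Mf d)
    (g : ∀ d, (V d).X → M.X), (∀ d : Fin (n + 1), HolM d n (g d)) ∧ A = ⋃ d, range (g d) ∧
      ∀ d, M.Kah → (V d).Kah

/-- the restriction of `f` to the stratum of `G` through `x` is a submersion at `x` -/
def SubmAt (n p : ℕ) {X Y κ : Type} [TopologicalSpace X] [ChartedSpace (Cm n) X]
    [TopologicalSpace Y] [ChartedSpace (Cm p) Y] (f : X → Y) (G : κ → Set X) (x : X) : Prop :=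
  ∀ e' : Chart p Y, At e' (f x) → ∀ ζ : κ → X → ℂ, (∀ l, LEq n (G l) x (ζ l)) →
    Ind n (Sum.elim (fun l : {l // x ∈ G l} => ζ l) fun (a : Fin p) z => e' (f z) a) x

/-- (CRIT) the points where `f` is not a submersion on the strata form an analytic set whose image
has no interior -/
def CRIT : Prop :=
  ∀ (n p : ℕ) (V : Mf n) (Y : Mf p) (f : V.X → Y.X) (κ : Type) [Fintype κ] (G : κ → Set V.X),
    HolM n p f → Snc n G →
      An n {x | ¬ SubmAt n p f G x} ∧ Dense (f '' {x | ¬ SubmAt n p f G x})ᶜ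

theorem gen_of (h1 : REM) (h2 : CRIT) : GEN := by
  intro n p V Y f κ _ G hf hG
  obtain ⟨k1, k2⟩ := h2 n p V Y f κ G hf hG
  refine ⟨_, ⟨h1 n p V Y f _ hf k1, k2⟩, fun y hy x hx => ?_⟩
  subst hx
  exact by_contra fun h => hy ⟨x, h, rfl⟩

end Vale.Agent.P281Z.Ana
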