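import Vale.Agent.P281Z.An.Basic
import Vale.Agent.P277Z.Pj.Poly
import Vale.Agent.P277Z.Pj.Prj1
import Vale.Agent.P277Z.Pj.Br

/-!
# P281, block AN: a closed set which is generically a finite union of graphs is analytic
-/

open scoped Topology
open Set Filter Metric
open Vale.Agent.P272.K Vale.Agent.P277Z.Pj Vale.Agent.P277.H762

noncomputable section

namespace Vale.Agent.P281Z.Ana

variable {N r : ℕ} {S : Set (Cm N)} {π : Cm N →L[ℂ] Cm (r + 1)} {B T : Set (Cm (r + 1))}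

/-- restrictions of analytic functions -/
def HS (S : Set (Cm N)) (f : S → ℂ) (x : S) : Prop :=
  ∃ F : Cm N → ℂ, AnalyticAt ℂ F x.1 ∧ ∀ᶠ y in 𝓝 x, f y = F y.1

theorem lsec_of {B₀ : Set (Cm (r + 1))} (hB : IsOpen B₀) {ι : Type} [Finite ι]
    {α : ι → Cm (r + 1) → Cm N} (h1 : ∀ b ∈ B₀, ∀ i, AnalyticAt ℂ (α i) b ∧ α i b ∈ S ∧ π (α i b) = b)
    (h2 : ∀ y ∈ S, π y ∈ B₀ → ∃ i, y = α i (π y)) {x : S} (hx : π x.1 ∈ B₀)
    (h3 : ∀ i j, α i (π x.1) = α j (π x.1) → EqOn (α i) (α j) B₀) :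
    LSec (HS S) univ (fun y : S => π y.1) x := by
  classical
  obtain ⟨i, hi⟩ := h2 x.1 x.2 hx
  let s : Cm (r + 1) → S := fun b => if h : α i b ∈ S then ⟨α i b, h⟩ else x
  have hs : ∀ b ∈ B₀, (s b).1 = α i b := fun b hb => by simp only [s, dif_pos (h1 b hb i).2.1]
  have hc : Continuous fun y : S => π y.1 := π.continuous.comp continuous_subtype_val
  set M : Set S := {y | π y.1 ∈ B₀ ∧ ∀ j, α j (π x.1) ≠ x.1 → y.1 ≠ α j (π y.1)} with hM
  have k1 : ∀ y ∈ M, α i (π y.1) = y.1 := fun y hy => by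
    obtain ⟨j, hj⟩ := h2 y.1 y.2 hy.1
    have h4 : α j (π x.1) = x.1 := by_contra fun h => hy.2 j h hj
    exact (h3 i j (hi.symm.trans h4.symm) hy.1).trans hj.symm
  refine ⟨M, s, isOpen_iff_eventually.2 fun y hy => ?_, ⟨hx, fun j hj => hj.symm⟩, subset_univ _,
    isOpen_iff_eventually.2 ?_, fun y hy => ?_⟩
  · refine (hc.continuousAt.eventually (hB.mem_nhds hy.1)).and (eventually_all.2 fun j => ?_)
    by_cases hj : α j (π x.1) = x.1
    · exact .of_forall fun _ h => absurd hj h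
    · have h4 : ContinuousAt (fun y : S => y.1 - α j (π y.1)) y :=
        continuous_subtype_val.continuousAt.sub
          (ContinuousAt.comp (g := α j) (h1 _ hy.1 j).1.continuousAt hc.continuousAt)
      exact (h4.eventually_ne (sub_ne_zero.2 (hy.2 j hj))).mono fun z hz _ => sub_ne_zero.1 hz
  · rintro _ ⟨y, hy, rfl⟩
    have h4 : ∀ᶠ b in 𝓝 (π y.1), ∀ j, α j (π x.1) ≠ x.1 → α i b ≠ α j b := eventually_all.2 fun j => by
      by_cases hj : α j (π x.1) = x.1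
      · exact .of_forall fun _ h => absurd hj h
      · exact (((h1 _ hy.1 i).1.continuousAt.sub (h1 _ hy.1 j).1.continuousAt).eventually_ne
          (sub_ne_zero.2 ((k1 y hy).symm ▸ hy.2 j hj))).mono fun z hz _ => sub_ne_zero.1 hz
    filter_upwards [h4, hB.mem_nhds hy.1] with b a c
    have h5 := (h1 b c i).2.2
    exact ⟨⟨α i b, (h1 b c i).2.1⟩, ⟨by simpa only [h5] using c, by simpa only [h5] using a⟩, h5⟩
  · have h4 : s (π y.1) = y := Subtype.ext ((hs _ hy.1).trans (k1 y hy))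
    have h5 : ∀ᶠ b in 𝓝 (π y.1), (s b).1 = α i b := (hB.eventually_mem hy.1).mono hs
    have h6 : ContinuousAt s (π y.1) := Topology.IsInducing.subtypeVal.continuousAt_iff.2
      ((h1 _ hy.1 i).1.continuousAt.congr (h5.mono fun _ h => h.symm))
    refine ⟨h4, h6, fun f ⟨F, hF, e⟩ => ?_⟩
    refine (hF.comp_of_eq (h1 _ hy.1 i).1 (k1 y hy)).congr ?_
    filter_upwards [h5, h6.eventually (h4.symm ▸ e)] with b a c
    rw [c, a]
    rfl

/-- a set which is proper over `B` and generically a finite union of graphs -/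
structure Sheets (S : Set (Cm N)) (π : Cm N →L[ℂ] Cm (r + 1)) (B T : Set (Cm (r + 1))) : Prop where
  openB : IsOpen B
  connB : IsPreconnected B
  maps : MapsTo π S B
  proper : ∀ K ⊆ B, IsCompact K → IsCompact (S ∩ π ⁻¹' K)
  thin : Cv r T
  graph : ∀ b ∈ B \ T, ∃ (ι : Type) (_ : Finite ι) (α : ι → Cm (r + 1) → Cm N),
    ∀ᶠ b' in 𝓝 b, (∀ i, AnalyticAt ℂ (α i) b' ∧ α i b' ∈ S ∧ π (α i b') = b') ∧
      ∀ y ∈ S, π y = b' → ∃ i, y = α i b'
  opn : ∀ y ∈ S, ∀ M ∈ 𝓝 y, ∃ b, π '' (S ∩ M) ∈ 𝓝 b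

theorem Sheets.preC (h : Sheets S π B T) : ∃ E, PreC (HS S) univ (fun y : S => π y.1) B E := by
  have hc : Continuous fun y : S => π y.1 := π.continuous.comp continuous_subtype_val
  set L : Set S := {x | LSec (HS S) univ (fun y : S => π y.1) x} with hL
  have hLo : IsOpen L := isOpen_iff_eventually.2 fun x ⟨M, s, a, b, c⟩ =>
    (a.eventually_mem b).mono fun y hy => ⟨M, s, a, hy, c⟩
  have hpr : ∀ K ⊆ B, IsCompact K → IsCompact (univ ∩ (fun y : S => π y.1) ⁻¹' K) := by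
    intro K a b
    rw [univ_inter, Subtype.isCompact_iff]
    refine (congrArg IsCompact ?_).mp (h.proper K a b)
    ext y
    exact ⟨fun k => ⟨⟨y, k.1⟩, k.2, rfl⟩, by rintro ⟨y, k, rfl⟩; exact ⟨y.2, k⟩⟩
  set E := (fun y : S => π y.1) '' Lᶜ with hE
  have hEc : Cv r (B ∩ E) := by
    have h1 : Cv r ((B \ T) ∩ E) := cv_of_local fun b hb => by
      obtain ⟨ι, _, α, k⟩ := h.graph b hb.1
      obtain ⟨ρ, hρ, k⟩ := Metric.eventually_nhds_iff_ball.1 k
      refine ⟨_, ball_mem_nhds b hρ, (cv_iUnion (κ := {q : ι × ι × Fin N //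
        ¬ EqOn (fun b => α q.1 b q.2.2 - α q.2.1 b q.2.2) 0 (ball b ρ)})
        (T := fun q => {p | p ∈ ball b ρ ∧ α q.1.1 p q.1.2.2 - α q.1.2.1 p q.1.2.2 = 0})
        fun q => ?_).mono ?_⟩
      rotate_left
      · rintro _ ⟨a, -, x, c, rfl⟩
        by_contra hn
        refine c (lsec_of isOpen_ball (fun b hb => (k b hb).1)
          (fun y hy hb => (k _ hb).2 y hy rfl) a fun i j e b' hb' => funext fun l => ?_)
        by_contra hl
        exact hn (mem_iUnion.2 ⟨⟨(i, j, l), fun k => hl (sub_eq_zero.1 (k hb'))⟩, a,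
          sub_eq_zero.2 (congrFun e l)⟩)
      · have ha : ∀ p ∈ ball b ρ, AnalyticAt ℂ
            (fun p => α q.1.1 p q.1.2.2 - α q.1.2.1 p q.1.2.2) p := fun p hp =>
          (analyticAt_pi_iff.1 ((k p hp).1 _).1 _).sub (analyticAt_pi_iff.1 ((k p hp).1 _).1 _)
        exact H38.cv_zs isOpen_ball ha fun p hp e => q.2
          (AnalyticOnNhd.eqOn_zero_of_preconnected_of_eventuallyEq_zero ha
            (convex_ball _ _).isPreconnected hp e)
    refine (h.thin.union h1).mono fun b hb => ?_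
    by_cases k : b ∈ T
    exacts [Or.inl k, Or.inr ⟨⟨hb.1, k⟩, hb.2⟩]
  refine ⟨E, fun f x ⟨F, hF, e⟩ => ?_, isOpen_univ, h.openB, h.connB, hc.continuousOn,
    fun y _ => h.maps y.2, hpr, ?_, hEc, fun x _ hx => by_contra fun k => hx ⟨x, k, rfl⟩,
    fun x _ => ?_⟩
  · exact (hF.continuousAt.comp continuous_subtype_val.continuousAt).congr
      (e.mono fun _ k => k.symm)
  · rw [isOpen_iff_mem_nhds]
    rintro b ⟨hb, hbE⟩
    obtain ⟨K, hKb, hKs, hKc⟩ := local_compact_nhds (h.openB.mem_nhds hb)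
    have h2 := (((hpr K hKs hKc).diff hLo).image hc).isClosed.isOpen_compl.mem_nhds (x := b) (by
      rintro ⟨w, hw, hw'⟩
      exact hbE ⟨w, hw.2, hw'⟩)
    filter_upwards [hKb, h2] with b' h3 h4
    refine ⟨hKs h3, ?_⟩
    rintro ⟨w, hw, rfl⟩
    exact h4 ⟨w, ⟨⟨trivial, h3⟩, hw⟩, rfl⟩
  · rw [mem_closure_iff_nhds]
    intro M hM
    obtain ⟨M', hM', k⟩ := (mem_nhds_subtype _ _ _).1 hM
    obtain ⟨b, hb⟩ := h.opn x.1 x.2 M' hM'
    by_contra hn
    refine not_cv_nhds (k := r) (by simp) hb (hEc.mono ?_)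
    rintro _ ⟨y, hy, rfl⟩
    exact ⟨h.maps hy.1, by_contra fun a => hn ⟨⟨y, hy.1⟩, k hy.2, trivial, a⟩⟩

theorem Sheets.anE (h : Sheets S π B T) {z : Cm N} (hz : π z ∈ B) : AnE S z := by
  rcases S.eq_empty_or_nonempty with he | ⟨x₀, hx₀⟩
  · exact he ▸ anE_empty z
  obtain ⟨E, hP⟩ := h.preC
  obtain ⟨d, hC⟩ := br S _ r _ _ _ E hP ⟨⟨x₀, hx₀⟩, trivial⟩
  have h3 := fun a : Fin (d * N + 1) => hC.poly' (fun w => mom N ((a : ℕ) : ℂ) w.1) fun x _ =>
    ⟨_, (mom N _).analyticAt _, .of_forall fun _ => rfl⟩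
  choose κ k1 k2 k3 using h3
  refine ⟨d * N + 1, fun a y => mom N ((a : ℕ) : ℂ) y ^ d +
    ∑ i ∈ Finset.range d, κ a i (π y) * mom N ((a : ℕ) : ℂ) y ^ i, fun a => ?_, ?_⟩
  · refine (((mom N _).analyticAt z).pow d).add (Finset.analyticAt_fun_sum _ fun i _ => ?_)
    exact (AnalyticAt.fun_comp (k1 a i _ hz) (π.analyticAt z)).mul (((mom N _).analyticAt z).pow i)
  · filter_upwards [π.continuous.continuousAt.eventually (h.openB.mem_nhds hz)] with y hy
    refine ⟨fun k a => k3 a ⟨y, k⟩ trivial, fun k => ?_⟩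
    obtain ⟨x, hx⟩ := hC.lim _ hy
    by_contra hn
    obtain ⟨a, ha⟩ := exists_mom (fun k => y - (x k).1)
      (fun k e => hn (sub_eq_zero.1 e ▸ (x k).2)) (M := d * N + 1) (by simp)
    have := (k2 a _ hy x hx _).trans (k a)
    obtain ⟨k, -, hk⟩ := Finset.prod_eq_zero_iff.1 this
    exact ha k (by rw [map_sub, hk])

end Vale.Agent.P281Z.Ana
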