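import Vale.Agent.P281Z.An.Rk
import Vale.Agent.P281Z.An.Sheet
import Vale.Agent.P277Z.Pj.Prj
import Vale.Agent.P281.H150.Gen.Fac

/-!
# P281, block AN: the image of a proper holomorphic map from a manifold is analytic
-/

open scoped Manifold ContDiff Topology
open Set Filter Metric
open Vale.Agent.P272.K Vale.Agent.P277Z Vale.Agent.P277Z.Slc Vale.Agent.P277Z.Pj
open Vale.Agent.P277.H762

set_option linter.unusedSectionVars false

noncomputable section

namespace Vale.Agent.P281Z.Ana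

theorem rk_comp_eq {n m k : ℕ} {A : Cm m →L[ℂ] Cm k} {B : Cm n →L[ℂ] Cm m} :
    rk B ≤ rk (A.comp B) ↔ ∀ v, A (B v) = 0 → B v = 0 := by
  have h1 := LinearMap.finrank_range_add_finrank_ker (B : Cm n →ₗ[ℂ] Cm m)
  have h2 := LinearMap.finrank_range_add_finrank_ker (A.comp B : Cm n →ₗ[ℂ] Cm k)
  have h3 : LinearMap.ker (B : Cm n →ₗ[ℂ] Cm m) ≤ LinearMap.ker (A.comp B : Cm n →ₗ[ℂ] Cm k) :=
    fun v (hv : B v = 0) => show A (B v) = 0 by rw [hv, map_zero]
  unfold rk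
  refine ⟨fun h v hv => (Submodule.eq_of_le_of_finrank_le h3 (by omega)).ge hv, fun h => ?_⟩
  have h4 := Submodule.finrank_mono (show LinearMap.ker (A.comp B : Cm n →ₗ[ℂ] Cm k) ≤
    LinearMap.ker (B : Cm n →ₗ[ℂ] Cm m) from h)
  omega

variable {m N : ℕ} {W : Type} [TopologicalSpace W] [ChartedSpace (Cm m) W]
  [IsManifold 𝓘(ℂ, Cm m) ω W] {t : W → Cm N} {w : W} {O : Set W} {Ω : Set (Cm N)}

/-- the differential in a chart -/
def dC (t : W → Cm N) (e : Chart m W) (w : W) : Cm m →L[ℂ] Cm N :=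
  fderiv ℂ (fun z => t (e.symm z)) (e w)

variable (m) in
/-- the rank -/
def rkM (t : W → Cm N) (w : W) : ℕ := rk (dC t (chartAt (Cm m) w) w)

theorem dC_chart (h : H38.An m t w) {e e' : Chart m W} (he : At e w) (he' : At e' w) :
    dC t e' w = (dC t e w).comp (tr e e' w) := by
  have h0 : (fun z => t (e'.symm z)) =ᶠ[𝓝 (e' w)] fun z => t (e.symm (e (e'.symm z))) := by
    filter_upwards [ev_symm he' (at_near he)] with z hz
    rw [e.left_inv hz.2]
  have h1 : DifferentiableAt ℂ (fun z => t (e.symm z)) (e (e'.symm (e' w))) := by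
    rw [e'.left_inv he'.2]; exact (h e he).differentiableAt
  unfold dC tr
  rw [h0.fderiv_eq, fderiv_fun_comp (g := fun z => t (e.symm z)) (f := fun z => e (e'.symm z)) _ h1
    (trans_an he he').differentiableAt, e'.left_inv he'.2]

theorem rk_dC (h : H38.An m t w) {e : Chart m W} (he : At e w) : rk (dC t e w) = rkM m t w :=
  le_antisymm (by rw [dC_chart h (at_chartAt w) he]; exact rk_comp_le_left _ _)
    (by rw [rkM, dC_chart h he (at_chartAt w)]; exact rk_comp_le_left _ _)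

theorem dC_clm (h : H38.An m t w) {k : ℕ} (π : Cm N →L[ℂ] Cm k) {e : Chart m W} (he : At e w) :
    dC (fun w => π (t w)) e w = π.comp (dC t e w) :=
  (π.hasFDerivAt.comp _ (h e he).differentiableAt.hasFDerivAt).fderiv

theorem an_near (h : H38.An m t w) : ∀ᶠ w' in 𝓝 w, H38.An m t w' :=
  (eventually_all.2 fun i => Hol.near (a := fun w => t w i)
    fun e he => analyticAt_pi_iff.1 (h e he) i).mono fun _ k => H38.an_of k

theorem anAt_rkM (h : H38.An m t w) (c : ℕ) : AnAt m {w | rkM m t w < c} w := by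
  have he := at_chartAt (n := m) w
  refine (AnAt.of_chart' he (rkan _ _ _ c _ _ (an_fderiv (h _ he)))).congr ?_
  filter_upwards [an_near h, at_near he] with y a b
  exact iff_of_eq (congrArg (· < c) (rk_dC a b))

theorem rkM_lsc (h : H38.An m t w) {c : ℕ} (hc : c ≤ rkM m t w) :
    ∀ᶠ w' in 𝓝 w, c ≤ rkM m t w' := by
  have he := at_chartAt (n := m) w
  filter_upwards [an_near h, at_near he, rk_lsc (L := dC t (chartAt (Cm m) w))
    ((h _ he).fderiv.continuousAt.comp ((chartAt (Cm m) w).continuousAt he.2)) hc] with y a b k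
  rwa [← rk_dC a b]

theorem cv_man [SecondCountableTopology W] (hO : IsOpen O) (h : ∀ w ∈ O, H38.An m t w) (k : ℕ) :
    Cv k (t '' {w | w ∈ O ∧ rkM m t w ≤ k}) := by
  obtain ⟨T, -, hTc, hT⟩ := TopologicalSpace.countable_cover_nhdsWithin (s := O)
    (f := fun w => (chartAt (Cm m) w).source)
    fun w _ => mem_nhdsWithin_of_mem_nhds (chart_source_mem_nhds _ w)
  refine (cv_biUnion hTc fun x _ => cvrk m N k _ _
    ((chartAt (Cm m) x).isOpen_inter_preimage_symm hO)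
    fun p hp => H38.an_target h (chart_mem_atlas _ _) hp).mono ?_
  rintro _ ⟨w, hw, rfl⟩
  obtain ⟨x, hx, hwx⟩ := mem_iUnion₂.1 (hT hw.1)
  have h1 := (chartAt (Cm m) x).left_inv hwx
  exact mem_iUnion₂.2 ⟨x, hx, chartAt (Cm m) x w, ⟨⟨(chartAt (Cm m) x).map_source hwx,
    by rw [mem_preimage, h1]; exact hw.1⟩,
    (rk_dC (h w hw.1) ⟨chart_mem_atlas _ _, hwx⟩).trans_le hw.2⟩, by simp only [h1]⟩

theorem map_nhds_of_rk (h : H38.An m t w) (hr : N ≤ rkM m t w) : map t (𝓝 w) = 𝓝 (t w) := by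
  have he := at_chartAt (n := m) w
  set e := chartAt (Cm m) w
  have h1 := (h e he).hasStrictFDerivAt.map_nhds_eq_of_surj (LinearMap.range_eq_top.2
    ((rk_eq_iff_surj _).1 (le_antisymm (rk_le_right _) hr)))
  rw [e.left_inv he.2] at h1
  rw [← h1, ← e.symm_map_nhds_eq he.2, map_map]
  rfl

/-- factorization through a projection of the same rank -/
theorem factor {r : ℕ} (π : Cm N →L[ℂ] Cm r) (h : H38.An m t w)
    (h1 : ∀ᶠ w' in 𝓝 w, rkM m t w' ≤ r) (h2 : r ≤ rkM m (fun w => π (t w)) w) :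
    ∃ α : Cm r → Cm N, AnalyticAt ℂ α (π (t w)) ∧ ∀ᶠ w' in 𝓝 w, t w' = α (π (t w')) := by
  have he := at_chartAt (n := m) w
  set e := chartAt (Cm m) w
  have h3 : ∀ᶠ w' in 𝓝 w, ∀ ξ, dC (fun w => π (t w)) e w' ξ = 0 → ∀ i,
      fderiv ℂ (fun z => t (e.symm z) i) (e w') ξ = 0 := by
    filter_upwards [an_near h, at_near he, h1, rkM_lsc (h.clm π) h2] with y a b c d ξ hξ i
    rw [← rk_dC (a.clm π) b, dC_clm a π b] at d
    rw [dC_clm a π b] at hξ
    rw [(hasFDerivAt_pi'.1 (a e b).differentiableAt.hasFDerivAt i).fderiv]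
    exact congrFun (rk_comp_eq.1 (((rk_dC a b).trans_le c).trans d) ξ hξ) i
  have h4 := fun i => Vale.Agent.P281.H150.Gen.exists_factor (h.clm π e he)
    (analyticAt_pi_iff.1 (h e he) i) ((rk_eq_iff_surj _).1 (le_antisymm (rk_le_right _) h2)) (by
      filter_upwards [ev_symm he h3, e.open_target.mem_nhds (e.map_source he.2)] with z a b ξ hξ
      unfold dC at a
      rw [e.right_inv b] at a
      exact a ξ hξ i)
  choose H k1 k2 using h4
  refine ⟨fun b i => H i b, AnalyticAt.pi fun i => by simpa only [e.left_inv he.2] using k1 i,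
    ev_of_symm he ((eventually_all.2 k2).mono fun z hz => funext hz)⟩

theorem anE_finite {F : Set (Cm N)} (hF : F.Finite) (z : Cm N) : AnE F z := by
  have := hF.to_subtype
  rw [← iUnion_of_singleton_coe F]
  exact anE_iUnion fun a => ⟨N, fun i y => y i - a.1 i, fun i =>
    ((ContinuousLinearMap.proj (R := ℂ) (φ := fun _ : Fin N => ℂ) i).analyticAt z).sub
      analyticAt_const, .of_forall fun y => by simp [sub_eq_zero, funext_iff]⟩

theorem reml_zero (h : Prp m O t Ω) (h1 : ∀ w ∈ O, rkM m t w ≤ 0) {z : Cm N} (hz : z ∈ Ω) :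
    AnE (t '' O) z := by
  obtain ⟨ε, hε, hεΩ⟩ := nhds_basis_closedBall.mem_iff.1 (h.isOpen'.mem_nhds hz)
  obtain ⟨s, -, hs⟩ := (h.proper _ hεΩ (isCompact_closedBall z ε)).elim_nhds_subcover
    (fun w => {w' | t w' = t w ∧ w ∈ O}) fun w hw => by
      obtain ⟨α, -, k⟩ := factor (0 : Cm N →L[ℂ] Cm 0) (H38.an_of (h.hol w hw.1))
        ((h.isOpen.eventually_mem hw.1).mono h1) (Nat.zero_le _)
      exact k.mono fun w' a => ⟨a.trans k.self_of_nhds.symm, hw.1⟩
  refine (anE_finite ((s.finite_toSet.inter_of_left O).image t) z).congr ?_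
  filter_upwards [closedBall_mem_nhds z hε] with y hy
  refine ⟨fun k => image_mono inter_subset_right k, ?_⟩
  rintro ⟨w, hw, rfl⟩
  obtain ⟨x, a, b⟩ := mem_iUnion₂.1 (hs ⟨hw, hy⟩)
  exact ⟨x, ⟨a, b.2⟩, b.1.symm⟩

theorem reml_succ [SecondCountableTopology W] {r : ℕ} (h : Prp m O t Ω)
    (h1 : ∀ w ∈ O, rkM m t w ≤ r + 1) (h2 : O ⊆ closure {w | w ∈ O ∧ r + 1 ≤ rkM m t w})
    {z : Cm N} (hz : z ∈ Ω) : AnE (t '' O) z := by
  have han : ∀ w ∈ O, H38.An m t w := fun w hw => H38.an_of (h.hol w hw)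
  have htc : ContinuousOn t O := fun w hw => (han w hw).cont.continuousWithinAt
  obtain ⟨D, hDc, hD⟩ := TopologicalSpace.exists_countable_dense {w | w ∈ O ∧ r + 1 ≤ rkM m t w}
  have : Countable D := hDc
  obtain ⟨π, hπ, hπ'⟩ := H38.exists_proj z (κ := D) (r + 1) (t '' O)
    (fun w => LinearMap.range (dC t (chartAt (Cm m) w.1.1) w.1.1 : Cm m →ₗ[ℂ] Cm N))
    ((cv_man h.isOpen han _).mono (image_mono fun w hw => ⟨hw, h1 w hw⟩)) fun w => h1 _ w.1.2.1
  have hG : ∀ w ∈ O, H38.An m (fun w => π (t w)) w := fun w hw => (han w hw).clm π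
  have hGc : ContinuousOn (fun w => π (t w)) O := fun w hw => (hG w hw).cont.continuousWithinAt
  have hd : O ⊆ closure {w | w ∈ O ∧ r + 1 ≤ rkM m (fun w => π (t w)) w} := by
    refine (h2.trans (closure_minimal (Subtype.dense_iff.1 hD) isClosed_closure)).trans
      (closure_mono ?_)
    rintro _ ⟨w, hw, rfl⟩
    refine ⟨w.2.1, w.2.2.trans ?_⟩
    rw [rkM, rkM, dC_clm (han _ w.2.1) π (at_chartAt _)]
    exact rk_comp_eq.2 fun v hv => hπ' ⟨w, hw⟩ _ ⟨v, rfl⟩ hv
  obtain ⟨ε, hε, hεΩ⟩ := nhds_basis_closedBall.mem_iff.1 (h.isOpen'.mem_nhds hz)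
  obtain ⟨ρ, hρ, hρ'⟩ : ∃ ρ ∈ Ioo 0 ε, ρ ∉ (fun y => dist y z) '' {y | y ∈ t '' O ∧ π y = π z} := by
    obtain ⟨ρ, k1, k2⟩ := ((hπ.image fun y => dist y z).dense_compl ℝ).inter_open_nonempty _
      isOpen_Ioo (nonempty_Ioo.2 hε)
    exact ⟨ρ, k1, k2⟩
  have hρΩ : closedBall z ρ ⊆ Ω := (closedBall_subset_closedBall hρ.2.le).trans hεΩ
  have hK : IsCompact ((fun w => π (t w)) '' (O ∩ t ⁻¹' sphere z ρ)) :=
    (h.proper _ (sphere_subset_closedBall.trans hρΩ) (isCompact_sphere z ρ)).image_of_continuousOn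
      (hGc.mono inter_subset_left)
  obtain ⟨δ, hδ, hδK⟩ := Metric.isOpen_iff.1 hK.isClosed.isOpen_compl (π z) (by
    rintro ⟨w, hw, hw'⟩
    exact hρ' ⟨t w, ⟨⟨w, hw.1, rfl⟩, hw'⟩, hw.2⟩)
  set U := ball z ρ ∩ π ⁻¹' ball (π z) δ with hU
  have hUo : IsOpen U := isOpen_ball.inter (isOpen_ball.preimage π.continuous)
  have hin : ∀ w ∈ O, t w ∈ closedBall z ρ → π (t w) ∈ ball (π z) δ → t w ∈ U := fun w a b c =>
    ⟨mem_ball.2 (lt_of_le_of_ne (mem_closedBall.1 b) fun k => hδK c ⟨w, ⟨a, k⟩, rfl⟩), c⟩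
  have hcp : ∀ K : Set (Cm (r + 1)), IsClosed K →
      IsCompact (O ∩ t ⁻¹' (closedBall z ρ ∩ π ⁻¹' K)) := fun K hK =>
    h.proper _ (inter_subset_left.trans hρΩ)
      ((isCompact_closedBall z ρ).inter_right (hK.preimage π.continuous))
  have hS : Sheets (t '' O ∩ U) π (ball (π z) δ)
      ((fun w => π (t w)) '' {w | w ∈ O ∧ rkM m (fun w => π (t w)) w ≤ r}) := by
    refine ⟨isOpen_ball, (convex_ball _ _).isPreconnected, fun y hy => hy.2.2, fun K a b => ?_,
      cv_man h.isOpen hG r, fun b hb => ?_, ?_⟩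
    · refine (congrArg IsCompact ?_).mp
        ((hcp K b.isClosed).image_of_continuousOn (htc.mono inter_subset_left))
      ext y
      constructor
      · rintro ⟨w, ⟨c, d, e⟩, rfl⟩
        exact ⟨⟨⟨w, c, rfl⟩, hin w c d (a e)⟩, e⟩
      · rintro ⟨⟨⟨w, c, rfl⟩, d⟩, e⟩
        exact ⟨w, ⟨c, ball_subset_closedBall d.1, e⟩, rfl⟩
    · have k1 : ∀ w ∈ O ∩ t ⁻¹' (closedBall z ρ ∩ π ⁻¹' {b}), ∃ (α : Cm (r + 1) → Cm N)
          (M : Set W), IsOpen M ∧ w ∈ M ∧ (∀ w' ∈ M, t w' = α (π (t w'))) ∧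
          ∀ᶠ b' in 𝓝 b, AnalyticAt ℂ α b' ∧ α b' ∈ t '' O ∩ U ∧ π (α b') = b' := by
        rintro w ⟨a, c, d⟩
        have d' : π (t w) = b := d
        have k2 : r + 1 ≤ rkM m (fun w => π (t w)) w := not_le.1 fun k => hb.2 ⟨w, ⟨a, k⟩, d'⟩
        obtain ⟨α, k3, k4⟩ := factor π (han w a) ((h.isOpen.eventually_mem a).mono h1) k2
        obtain ⟨M, k5, k6, k7⟩ := eventually_nhds_iff.1 (k4.and ((h.isOpen.eventually_mem a).and
          ((han w a).cont.eventually (hUo.mem_nhds (hin w a c (d' ▸ hb.1))))))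
        refine ⟨α, M, k6, k7, fun w' hw' => (k5 w' hw').1, (d' ▸ k3).eventually_analyticAt.and ?_⟩
        have k8 := image_mem_map (m := fun w => π (t w)) (k6.mem_nhds k7)
        rw [map_nhds_of_rk (hG w a) k2, d'] at k8
        filter_upwards [k8]
        rintro _ ⟨w', e, rfl⟩
        rw [← (k5 w' e).1]
        exact ⟨⟨⟨w', (k5 w' e).2.1, rfl⟩, (k5 w' e).2.2⟩, rfl⟩
      choose! α M k2 k3 k4 k5 using k1
      obtain ⟨s, k6, k7⟩ := (hcp {b} isClosed_singleton).elim_nhds_subcover M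
        fun w hw => (k2 w hw).mem_nhds (k3 w hw)
      have k8 := (((hcp univ isClosed_univ).diff (isOpen_biUnion (s := (s : Set W))
        fun w hw => k2 w (k6 w hw))).image_of_continuousOn
          (hGc.mono fun w hw => hw.1.1)).isClosed.isOpen_compl.mem_nhds (x := b) (by
        rintro ⟨w, a, c⟩
        exact a.2 (k7 ⟨a.1.1, a.1.2.1, c⟩))
      refine ⟨s, inferInstance, fun i => α i.1, ?_⟩
      filter_upwards [eventually_all.2 fun i : s => k5 i.1 (k6 _ i.2), k8] with b' a c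
      refine ⟨a, ?_⟩
      rintro _ ⟨⟨w, d, rfl⟩, e⟩ rfl
      obtain ⟨x, p, q⟩ := mem_iUnion₂.1 (by_contra fun k =>
        c ⟨w, ⟨⟨d, ball_subset_closedBall e.1, trivial⟩, k⟩, rfl⟩)
      exact ⟨⟨x, p⟩, k4 x (k6 x p) w q⟩
    · rintro _ ⟨⟨w, a, rfl⟩, b⟩ M hM
      obtain ⟨w', c, d⟩ := mem_closure_iff_nhds.1 (hd a) _ (((h.isOpen.eventually_mem a).and
        ((han w a).cont.eventually (inter_mem hM (hUo.mem_nhds b)))).eventually_nhds)
      have k8 := image_mem_map (m := fun w => π (t w)) c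
      rw [map_nhds_of_rk (hG w' d.1) d.2] at k8
      refine ⟨_, mem_of_superset k8 ?_⟩
      rintro _ ⟨x, e, rfl⟩
      exact ⟨t x, ⟨⟨⟨x, e.1, rfl⟩, e.2.2⟩, e.2.1⟩, rfl⟩
  refine (hS.anE (mem_ball_self hδ)).congr ?_
  filter_upwards [hUo.mem_nhds ⟨mem_ball_self hρ.1, mem_ball_self hδ⟩] with y hy
  exact and_iff_left hy

theorem reml : REML := by
  intro m W _ _ _ _ _ N O t Ω h z hz
  have han : ∀ w ∈ O, H38.An m t w := fun w hw => H38.an_of (h.hol w hw)
  let I : ℕ → Set W := fun c => interior {w | rkM m t w < c}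
  let P : ℕ → Set W := fun r => (O ∩ I (r + 1)) \ closure (I r)
  have hc : ∀ c, ∀ w ∈ O, w ∈ closure (I c) → w ∈ I c := fun c w hw k =>
    (anAt_rkM (han w hw) c).near_interior k
  have hP : ∀ r, Prp m (P r) t Ω := fun r => by
    refine ⟨(h.isOpen.inter isOpen_interior).sdiff isClosed_closure, h.isOpen',
      fun w hw => h.hol w hw.1.1, fun w hw => h.maps hw.1.1, fun K a b => ?_⟩
    refine (congrArg IsCompact ?_).mp (((h.proper K a b).inter_right
      (isClosed_closure (s := I (r + 1)))).diff (isOpen_interior (s := {w | rkM m t w < r})))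
    ext w
    exact ⟨fun k => ⟨⟨⟨k.1.1.1, hc _ w k.1.1.1 k.1.2⟩, fun j => k.2 (hc _ w k.1.1.1 j)⟩, k.1.1.2⟩,
      fun k => ⟨⟨⟨k.1.1.1, k.2⟩, subset_closure k.1.1.2⟩, fun j => k.1.2 (subset_closure j)⟩⟩
  have hle : ∀ r, ∀ w ∈ P r, rkM m t w ≤ r := fun r w hw =>
    Nat.lt_succ_iff.1 (interior_subset (s := {w | rkM m t w < r + 1}) hw.1.2)
  have h1 : ∀ r, AnE (t '' P r) z := fun r => by
    cases r with
    | zero => exact reml_zero (hP 0) (hle 0) hz
    | succ r =>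
      refine reml_succ (hP _) (hle _) (fun w hw => ?_) hz
      rw [mem_closure_iff_frequently]
      refine fun k => hw.2 (subset_closure (mem_interior_iff_mem_nhds.2 ?_))
      filter_upwards [k, (hP _).isOpen.mem_nhds hw] with y a b using not_le.1 fun c => a ⟨b, c⟩
  have h2 : O = ⋃ r ∈ Finset.range (N + 1), P r := by
    refine subset_antisymm (fun w hw => ?_) (iUnion₂_subset fun r _ w hw => hw.1.1)
    have k1 : w ∈ I (N + 1) := mem_interior_iff_mem_nhds.2
      (Eventually.of_forall fun y => Nat.lt_succ_of_le (rk_le_right _))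
    classical
    have k2 : ∃ r, w ∈ I (r + 1) := ⟨N, k1⟩
    refine mem_iUnion₂.2 ⟨Nat.find k2, Finset.mem_range.2 (Nat.lt_succ_of_le (Nat.find_min' k2 k1)),
      ⟨hw, Nat.find_spec k2⟩, fun k => ?_⟩
    have k3 := hc _ w hw k
    rcases hr : Nat.find k2 with _ | r
    · rw [hr] at k3
      exact Nat.not_lt_zero _ (interior_subset (s := {w | rkM m t w < 0}) k3)
    · rw [hr] at k3
      exact Nat.find_min k2 (hr ▸ Nat.lt_succ_self r) k3
  rw [h2, image_iUnion₂]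
  exact anE_biUnion _ fun r _ => h1 r

end Vale.Agent.P281Z.Ana
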