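import Vale.Agent.P281Z.An.Reml
import Vale.Agent.P281Z.Mf.Mod

/-!
# P281, block AN: the proper mapping theorem
-/

open scoped Manifold ContDiff Topology
open Set Filter
open Vale.Agent.P272.K Vale.Agent.P277Z Vale.Agent.P277Z.Slc Vale.Agent.P277Z.Pj

noncomputable section

namespace Vale.Agent.P281Z.Ana

theorem prp_chart {n p : ℕ} {V : Mf n} {Y : Mf p} {f : V.X → Y.X} (hf : HolM n p f)
    {e : Chart p Y.X} (he : e ∈ atlas (Cm p) Y.X) :
    Prp n (f ⁻¹' e.source) (fun w => e (f w)) e.target := by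
  refine ⟨e.open_source.preimage hf.cont, e.open_target, fun w hw i => hf.coord ⟨he, hw⟩ i,
    fun w hw => e.map_source hw, fun K a b => ?_⟩
  refine (congrArg IsCompact ?_).mp (((b.image_of_continuousOn
    (e.continuousOn_symm.mono a)).isClosed.preimage hf.cont).isCompact)
  ext w
  constructor
  · rintro ⟨z, c, d⟩
    exact ⟨show f w ∈ e.source from d ▸ e.map_target (a c),
      show e (f w) ∈ K by rw [← d, e.right_inv (a c)]; exact c⟩
  · exact fun k => ⟨_, k.2, e.left_inv k.1⟩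

theorem remm : REMM := by
  intro n p V Y f hf y
  have he := at_chartAt (n := p) y
  set e := chartAt (Cm p) y
  refine AnAt.of_chart he ((reml n V.X p _ _ _ (prp_chart hf he.1) _ (e.map_source he.2)).congr ?_)
  filter_upwards [e.open_target.mem_nhds (e.map_source he.2)] with z hz
  constructor
  · rintro ⟨w, hw, rfl⟩
    exact ⟨w, (e.left_inv hw).symm⟩
  · rintro ⟨w, hw⟩
    exact ⟨w, show f w ∈ e.source from hw ▸ e.map_target hz, by simp only [hw, e.right_inv hz]⟩

theorem _root_.Vale.Agent.P281Z.Over.range {n p : ℕ} {V : Mf n} {Y : Mf p} {π : V.X → Y.X}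
    {A B : Set Y.X} (h : Over n p π A B) : range π = closure (A \ B) := h.rng

theorem par_of (h1 : RES) (h2 : IDL) (h3 : REG) : PAR := by
  intro n M A hA
  obtain ⟨B, k1, -, k3, k4⟩ := h3 n M.X A hA
  have key : ∀ d : Fin (n + 1), ∃ (V : Mf d) (g : V.X → M.X), HolM d n g ∧
      range g = closure (A \ B d) ∧ (M.Kah → V.Kah) := fun d => by
    obtain ⟨I, hI⟩ := h2 n M (B d) (k1 d)
    obtain ⟨V, π, r, E, a, -, -, -, b, -⟩ := h1 n d M A I hA (hI ▸ k3 d)
    exact ⟨V, π, a.hol, hI ▸ a.range, b⟩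
  choose V g a b c using key
  refine ⟨V, g, a, k4.trans ?_, c⟩
  simp only [b]
  ext x
  simp only [mem_iUnion, Finset.mem_range]
  exact ⟨fun ⟨d, p, q⟩ => ⟨⟨d, p⟩, q⟩, fun ⟨d, q⟩ => ⟨d, d.2, q⟩⟩

theorem rem_of_par (h : PAR) : REM := by
  intro n p V Y f A hf hA
  obtain ⟨W, g, a, b, -⟩ := h n V A hA
  rw [b, image_iUnion]
  refine an_iUnion fun d => ?_
  rw [← range_comp]
  exact remm d p (W d) Y _ (hf.comp (a d))

theorem rem_of (h1 : RES) (h2 : IDL) (h3 : REG) : REM := rem_of_par (par_of h1 h2 h3)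

end Vale.Agent.P281Z.Ana
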